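import Claimed.Agent.R322.Sx.Wells

/-!
# R322 / Sx / Cells / Chain : comparison chains, AE Proposition 4.3 on interior balls (packages A, B)

(moved verbatim from `Sx/Cells.lean`; the header describes the whole package)

* `concentric_match` : AE proof of Lemma 5.3, "along concentric dyadic scales from `s0` to `v` the
  increments `C r' √d_*` sum to `C s0 √d_*`".
* `chain_match` : the off-centre overlap chain (enlarge, move the centre, shrink).
* `separated_ball` : AE Proposition 4.3 on an interior ball `B_r(y)` (rescaling).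
* `sep_gauss` : AE (5.12)/(5.18) and the paragraphs after them: at a controlled scale `v` with density
  `δ`, a majority list on `B_v(x)` with at least two groups separated by `10 S₂ v √δ`,
  `S₂ = exp(CS2 · b_Q(lev δ))`, gives
  `(L - C_Q Λ)_v + ((log a)²/a) D^{far}_v ≤ a^{-Pe} δ`, `a = lev δ`.

UNIFORM cells: body `|u| ≤ R = C_b √a`, all cells have the radius `r = c1 v/(1 + R)`, the common cell
density `d_c = C (1 + R)^{J + 2m} δ`, `T_c = -log d_c = a - O(log a)`; grid partition of unity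
`Tool.grid_pou` at the scale `r`; the weights `w_k χ G_v / (C_w G_v(y_k - x))` are admissible on
`B_r(y_k)`; `(log T_c)²/T_c ≥ (log a)²/a`; `T_c^{-P'} d_c ∑_k r^m G_v(y_k - x) ≤ a^{-Pe} δ / 2` for
`P' = Pe + J + 2m + 1`; the part of the Gaussian outside the body is `ctl_tail`.
-/

set_option autoImplicit false

namespace Claimed.Agent.R322.Sx

open MeasureTheory Set Metric
open scoped ENNReal NNReal InnerProductSpace

variable {m n Q : ℕ}

/-! ## Package Cells-A : comparison chains -/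

/-- existence of a majority list from `F.cfg`. -/
theorem Fix.exists_isMaj {Cg : ℝ} (F : Fix m n Q Cg) {S : Sys m n} (hS : S.Valid) (hCg : S.Cg ≤ Cg)
    {x : E m} {s d : ℝ} (hs : 0 < s) (hs1 : s ≤ 1) (hd0 : 0 ≤ d) (hd : d ≤ F.d0)
    (hb : ball x (F.c * s) ⊆ S.Ω) (hτ : S.tau Q (ball x (F.c * s)) ≤ ENNReal.ofReal (d * s ^ m)) :
    ∃ A : Fin Q → E n, F.IsMaj S x s d A := by
  obtain ⟨A, hA⟩ := F.cfg S hS hCg x s d hs hs1 hd0 hd hb hτ
  exact ⟨A, hA.maj⟩

theorem Fix.ball_subset {Cg : ℝ} (F : Fix m n Q Cg) (x : E m) {s : ℝ} (hs : 0 ≤ s) :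
    ball x s ⊆ ball x (F.c * s) :=
  ball_subset_ball (by nlinarith [F.c_gt])

theorem concentric_aux {Cg : ℝ} (F : Fix m n Q Cg) {S : Sys m n} (hS : S.Valid)
    (hCg : S.Cg ≤ Cg) {x : E m} {v s₀ d : ℝ} (hv : 0 < v) (hs : s₀ ≤ 1) (hd0 : 0 ≤ d)
    (hd : d ≤ F.d0)
    (hden : ∀ r, v ≤ r → r ≤ s₀ → ball x (F.c * r) ⊆ S.Ω ∧
      S.tau Q (ball x (F.c * r)) ≤ ENNReal.ofReal (d * r ^ m))
    {A : Fin Q → E n} (hA : F.IsMaj S x v d A) (N : ℕ) :
    ∀ (s : ℝ) (A' : Fin Q → E n), v ≤ s → s ≤ s₀ → s ≤ 2 ^ N * v → F.IsMaj S x s d A' →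
      Sys.Matched A A' (F.Cmaj * Real.sqrt d * (3 * s - v)) := by
  have hC := F.Cmaj_pos
  have hsq := Real.sqrt_nonneg d
  have hbΩ : ∀ r, v ≤ r → r ≤ s₀ → ball x r ⊆ S.Ω := fun r h1 h2 =>
    (F.ball_subset x (hv.le.trans h1)).trans (hden r h1 h2).1
  have hclose : ∀ (s : ℝ) (A' : Fin Q → E n), v ≤ s → s ≤ s₀ → s ≤ 2 * v → F.IsMaj S x s d A' →
      Sys.Matched A A' (F.Cmaj * Real.sqrt d * (3 * s - v)) := by
    intro s A' h1 h2 h3 hA'
    have hadj : Adjacent x x v s := ⟨hv, hv.trans_le h1, by linarith, h3, by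
      rw [sub_self, norm_zero]
      have : 0 < min v s := lt_min hv (hv.trans_le h1)
      positivity⟩
    refine (F.matching hS hadj (hbΩ v le_rfl (h1.trans h2)) (hbΩ s h1 h2) hA hA').mono ?_
    have : 0 ≤ F.Cmaj * Real.sqrt d := by positivity
    nlinarith
  induction N with
  | zero =>
    intro s A' h1 h2 h3 hA'
    exact hclose s A' h1 h2 (by simp at h3; linarith) hA'
  | succ N ih =>
    intro s A' h1 h2 h3 hA'
    by_cases hsv : s ≤ 2 * v
    · exact hclose s A' h1 h2 hsv hA'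
    · push Not at hsv
      have hs2 : v ≤ s / 2 := by linarith
      have hs0 : 0 < s := hv.trans_le h1
      have hs2' : s / 2 ≤ s₀ := by linarith
      obtain ⟨hb, hτ⟩ := hden (s / 2) hs2 hs2'
      obtain ⟨A'', hA''⟩ := F.exists_isMaj hS hCg (by positivity) (hs2'.trans hs) hd0 hd hb hτ
      have h4 := ih (s / 2) A'' hs2 hs2' (by rw [pow_succ] at h3; linarith) hA''
      have hadj : Adjacent x x (s / 2) s := ⟨by positivity, hs0, by linarith, by linarith, by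
        rw [sub_self, norm_zero]
        have : 0 < min (s / 2) s := lt_min (by positivity) hs0
        positivity⟩
      have h5 := F.matching hS hadj (hbΩ _ hs2 hs2') (hbΩ s h1 h2) hA'' hA'
      exact (h4.trans h5).mono (le_of_eq (by ring))

/-- concentric chain with a uniform density bound: geometric sum of the increments. -/
theorem concentric_match {Cg : ℝ} (F : Fix m n Q Cg) {S : Sys m n} (hS : S.Valid)
    (hCg : S.Cg ≤ Cg) {x : E m} {v s d : ℝ} (hv : 0 < v) (hvs : v ≤ s) (hs : s ≤ 1) (hd0 : 0 ≤ d)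
    (hd : d ≤ F.d0)
    (hden : ∀ r, v ≤ r → r ≤ s → ball x (F.c * r) ⊆ S.Ω ∧
      S.tau Q (ball x (F.c * r)) ≤ ENNReal.ofReal (d * r ^ m))
    {A A' : Fin Q → E n} (hA : F.IsMaj S x v d A) (hA' : F.IsMaj S x s d A') :
    Sys.Matched A A' (8 * F.Cmaj * s * Real.sqrt d) := by
  obtain ⟨N, hN⟩ := pow_unbounded_of_one_lt (s / v) (one_lt_two (α := ℝ))
  have h1 : s ≤ 2 ^ N * v := by
    rw [div_lt_iff₀ hv] at hN
    exact hN.le
  refine (concentric_aux F hS hCg hv hs hd0 hd hden hA N s A' hvs le_rfl h1 hA').mono ?_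
  have h2 : 0 ≤ F.Cmaj * Real.sqrt d := by
    have := F.Cmaj_pos
    positivity
  nlinarith

theorem adjacent_self (x : E m) {s : ℝ} (hs : 0 < s) : Adjacent x x s s :=
  ⟨hs, hs, by linarith, by linarith, by
    rw [sub_self, norm_zero, min_self]
    positivity⟩

/-- off-centre chain: two majority lists on balls `B_{s_i}(x_i) ⊆ B_{R v}(x)`, `s_i ≥ v / R`, inside a
region with a polynomial density bound, are matched within a fixed power of `R` times `v √δ`. -/
theorem chain_match (m n Q : ℕ) (hm : 1 ≤ m) (hQ : 1 ≤ Q) (Cg : ℝ) (F : Fix m n Q Cg) :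
    ∃ C J' : ℝ, 0 < C ∧ 0 ≤ J' ∧ ∀ S : Sys m n, S.Valid → S.Cg ≤ Cg →
      ∀ (x : E m) (v δ R : ℝ), 0 < v → 0 ≤ δ → 1 ≤ R → 32 * F.c * R * v ≤ 1 →
      ball x (32 * F.c * R * v) ⊆ S.Ω →
      S.tau Q (ball x (32 * F.c * R * v)) ≤ ENNReal.ofReal (δ * v ^ m) →
      δ * R ^ m ≤ F.d0 →
      ∀ (x1 x2 : E m) (s1 s2 d1 d2 : ℝ) (A1 A2 : Fin Q → E n),
      ‖x1 - x‖ ≤ R * v → ‖x2 - x‖ ≤ R * v → v / R ≤ s1 → s1 ≤ R * v → v / R ≤ s2 → s2 ≤ R * v →
      F.IsMaj S x1 s1 d1 A1 → F.IsMaj S x2 s2 d2 A2 →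
      Sys.Matched A1 A2
        (F.Cmaj * (s1 * Real.sqrt d1 + s2 * Real.sqrt d2) + C * R ^ J' * v * Real.sqrt δ) := by
  have hCm := F.Cmaj_pos
  refine ⟨146 * F.Cmaj, 1 + m / 2, by positivity, by positivity, ?_⟩
  intro S hS hCg x v δ R hv hδ hR h1 hball hτ hd0 x1 x2 s1 s2 d1 d2 A1 A2 hx1 hx2 hs1 hs1' hs2 hs2'
    hA1 hA2
  have hR0 : 0 < R := by linarith
  have hc := F.c_gt
  have hRv : 0 < R * v := by positivity
  set d := δ * R ^ m with hd
  have hdnn : 0 ≤ d := by positivity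
  set ρ := 8 * R * v with hρ
  have hρ0 : 0 < ρ := by positivity
  have hρ1 : ρ ≤ 1 := by
    refine le_trans ?_ h1
    rw [hρ]
    nlinarith
  have hvR : 0 < v / R := by positivity
  have hden : ∀ y, ‖y - x‖ ≤ R * v → ∀ r, v / R ≤ r → r ≤ ρ → ball y (F.c * r) ⊆ S.Ω ∧
      S.tau Q (ball y (F.c * r)) ≤ ENNReal.ofReal (d * r ^ m) := by
    intro y hy r hr1 hr2
    have hsub : ball y (F.c * r) ⊆ ball x (32 * F.c * R * v) := by
      apply ball_subset_ball'
      rw [dist_eq_norm]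
      have e1 : F.c * r ≤ F.c * ρ := mul_le_mul_of_nonneg_left hr2 (by linarith)
      rw [hρ] at e1
      nlinarith
    refine ⟨hsub.trans hball, (measure_mono hsub).trans (hτ.trans (ENNReal.ofReal_le_ofReal ?_))⟩
    have e1 : v ≤ R * r := by
      rw [div_le_iff₀ hR0] at hr1
      linarith
    have e2 : v ^ m ≤ (R * r) ^ m := pow_le_pow_left₀ hv.le e1 m
    rw [mul_pow] at e2
    calc δ * v ^ m ≤ δ * (R ^ m * r ^ m) := mul_le_mul_of_nonneg_left e2 hδ
      _ = d * r ^ m := by rw [hd]; ring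
  have hbΩ : ∀ y, ‖y - x‖ ≤ R * v → ∀ r, v / R ≤ r → r ≤ ρ → ball y r ⊆ S.Ω := fun y hy r h1 h2 =>
    (F.ball_subset y (hvR.le.trans h1)).trans (hden y hy r h1 h2).1
  have hs1ρ : s1 ≤ ρ := by rw [hρ]; nlinarith
  have hs2ρ : s2 ≤ ρ := by rw [hρ]; nlinarith
  have hvρ : v / R ≤ ρ := hs1.trans hs1ρ
  have hs10 : 0 < s1 := hvR.trans_le hs1
  have hs20 : 0 < s2 := hvR.trans_le hs2
  obtain ⟨B1, hB1⟩ := F.exists_isMaj hS hCg hs10 (hs1ρ.trans hρ1) hdnn hd0
    (hden x1 hx1 s1 hs1 hs1ρ).1 (hden x1 hx1 s1 hs1 hs1ρ).2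
  obtain ⟨B1', hB1'⟩ := F.exists_isMaj hS hCg hρ0 hρ1 hdnn hd0
    (hden x1 hx1 ρ hvρ le_rfl).1 (hden x1 hx1 ρ hvρ le_rfl).2
  obtain ⟨B2', hB2'⟩ := F.exists_isMaj hS hCg hρ0 hρ1 hdnn hd0
    (hden x2 hx2 ρ hvρ le_rfl).1 (hden x2 hx2 ρ hvρ le_rfl).2
  obtain ⟨B2, hB2⟩ := F.exists_isMaj hS hCg hs20 (hs2ρ.trans hρ1) hdnn hd0
    (hden x2 hx2 s2 hs2 hs2ρ).1 (hden x2 hx2 s2 hs2 hs2ρ).2
  have m1 := F.matching hS (adjacent_self x1 hs10) (hbΩ x1 hx1 s1 hs1 hs1ρ) (hbΩ x1 hx1 s1 hs1 hs1ρ)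
    hA1 hB1
  have m2 := concentric_match F hS hCg hs10 hs1ρ hρ1 hdnn hd0
    (fun r h1 h2 => hden x1 hx1 r (hs1.trans h1) h2) hB1 hB1'
  have hadj : Adjacent x1 x2 ρ ρ := ⟨hρ0, hρ0, by linarith, by linarith, by
    rw [min_self]
    have e1 : ‖x1 - x2‖ ≤ ‖x1 - x‖ + ‖x2 - x‖ := by
      have := norm_sub_le (x1 - x) (x2 - x)
      simpa using this
    rw [hρ]
    linarith⟩
  have m3 := F.matching hS hadj (hbΩ x1 hx1 ρ hvρ le_rfl) (hbΩ x2 hx2 ρ hvρ le_rfl) hB1' hB2'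
  have m4 := concentric_match F hS hCg hs20 hs2ρ hρ1 hdnn hd0
    (fun r h1 h2 => hden x2 hx2 r (hs2.trans h1) h2) hB2 hB2'
  have m5 := F.matching hS (adjacent_self x2 hs20) (hbΩ x2 hx2 s2 hs2 hs2ρ) (hbΩ x2 hx2 s2 hs2 hs2ρ)
    hB2 hA2
  refine ((((m1.trans m2).trans m3).trans m4.symm).trans m5).mono ?_
  have hsq : Real.sqrt d = Real.sqrt δ * R ^ ((m : ℝ) / 2) := by
    rw [hd, Real.sqrt_mul hδ, Real.sqrt_eq_rpow (R ^ m), ← Real.rpow_natCast R m,
      ← Real.rpow_mul hR0.le]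
    congr 2
    ring
  have hRJ : R ^ (1 + (m : ℝ) / 2) = R * R ^ ((m : ℝ) / 2) := by
    rw [Real.rpow_add hR0, Real.rpow_one]
  rw [hRJ]
  have hsd : 0 ≤ Real.sqrt d := Real.sqrt_nonneg d
  have key : F.Cmaj * Real.sqrt d * (s1 + s2 + 18 * ρ) ≤ F.Cmaj * Real.sqrt d * (146 * (R * v)) := by
    apply mul_le_mul_of_nonneg_left _ (by positivity)
    rw [hρ]
    linarith
  have e3 : 146 * F.Cmaj * (R * R ^ ((m : ℝ) / 2)) * v * Real.sqrt δ
      = F.Cmaj * Real.sqrt d * (146 * (R * v)) := by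
    rw [hsq]; ring
  rw [e3]
  nlinarith

/-! ## Package Cells-B : AE Proposition 4.3 on an interior ball -/

open scoped Pointwise in
theorem distA_smul {c : ℝ} (hc : 0 < c) (A : Fin Q → E n) (ζ : E n) :
    Sys.distA (fun j => c • A j) (c • ζ) = c * Sys.distA A ζ := by
  unfold Sys.distA
  have h1 : range (fun j => c • A j) = c • range A := by
    ext z
    simp [Set.mem_smul_set]
  rw [h1, infDist_smul₀ hc.ne', Real.norm_of_nonneg hc.le]

theorem image_affine_ball (y : E m) {r : ℝ} (hr : 0 < r) (ρ : ℝ) :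
    (fun z : E m => y + r • z) '' ball (0 : E m) ρ = ball y (ρ * r) := by
  ext z
  constructor
  · rintro ⟨u, hu, rfl⟩
    rw [mem_ball_zero_iff] at hu
    rw [mem_ball, dist_eq_norm, add_sub_cancel_left, norm_smul, Real.norm_of_nonneg hr.le]
    nlinarith
  · intro hz
    rw [mem_ball, dist_eq_norm] at hz
    refine ⟨r⁻¹ • (z - y), ?_, ?_⟩
    · rw [mem_ball_zero_iff, norm_smul, norm_inv, Real.norm_of_nonneg hr.le, inv_mul_lt_iff₀ hr]
      linarith
    · simp only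
      rw [smul_smul, mul_inv_cancel₀ hr.ne', one_smul]
      abel

/-- `separated` for `S.rescale y r`, written in the original coordinates. -/
theorem separated_ball (m n Q : ℕ) (hm : 1 ≤ m) (hQ : 2 ≤ Q)
    (ih : ∀ q : ℕ, 1 ≤ q → q < Q → SignedAt m n q) (κ Cg : ℝ) (hκ : 0 < κ)
    (F : Fix m n Q Cg) (P : ℝ) (hP : 0 < P) :
    ∃ CQ CS T0 : ℝ, 0 < CQ ∧ 0 < CS ∧ ∀ (S : Sys m n) (y : E m) (r T : ℝ), T0 ≤ T →
      S.Valid → S.Cg ≤ Cg → 0 < r → r ≤ 1 → ball y (4 * r) ⊆ S.Ω →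
      S.tau Q (ball y (4 * r)) ≤ ENNReal.ofReal (Real.exp (-T) * r ^ m) →
      S.γ ≤ Real.exp (-κ * T) →
      ∀ A : Fin Q → E n,
      F.IsMaj S y (F.rmaj * r) (F.rmaj ^ (-(m : ℝ)) * Real.exp (-T)) A →
      ∀ grp : Fin Q → Fin Q, (∃ i j, grp i ≠ grp j) →
      Sys.Separated A grp (10 * Real.exp (CS * bQ Q T) * r * Real.sqrt (Real.exp (-T))) →
      ∀ w : E m → ℝ, IsWeight w y r →
        S.intL Q w - CQ * S.intLam w
            + Real.log T ^ 2 / T
              * S.intDfar A (Real.exp (CS * bQ Q T) * r * Real.sqrt (Real.exp (-T))) w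
          ≤ T ^ (-P) * Real.exp (-T) * r ^ m := by
  obtain ⟨CQ, CS, T0, hCQ, hCS, H⟩ := separated m n Q hm hQ ih κ Cg hκ F P hP
  refine ⟨CQ, CS, T0, hCQ, hCS, ?_⟩
  intro S y r T hT hS hCg hr hr1 hball hτ hγ A hA grp hgrp hsep w hw
  have hrm : 0 < r ^ m := by positivity
  have hcancel : ∀ z : E m, y + r • (r⁻¹ • (z - y)) = z := by
    intro z
    rw [smul_smul, mul_inv_cancel₀ hr.ne', one_smul]
    abel
  have hcancel2 : ∀ ζ : E n, r • (r⁻¹ • ζ) = ζ := by
    intro ζ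
    rw [smul_smul, mul_inv_cancel₀ hr.ne', one_smul]
  -- hypotheses for the rescaled system
  have hyp : SignedHyp (S.rescale y r) Q κ Cg T := by
    refine ⟨hS.rescale y hr hr1, hCg, ?_, ?_, hγ⟩
    · apply Sys.rescale_ball_subset hr
      rw [smul_zero, add_zero, mul_comm]
      exact hball
    · rw [hS.rescale_tau Q y hr, image_affine_ball y hr]
      calc (ENNReal.ofReal (r ^ m))⁻¹ * S.tau Q (ball y (4 * r))
          ≤ (ENNReal.ofReal (r ^ m))⁻¹ * ENNReal.ofReal (Real.exp (-T) * r ^ m) := by gcongr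
        _ = ENNReal.ofReal (Real.exp (-T)) := by
            rw [ENNReal.ofReal_mul (Real.exp_pos _).le, mul_comm, mul_assoc,
              ENNReal.mul_inv_cancel (by simpa using hrm) ENNReal.ofReal_ne_top, mul_one]
  have hA' : F.IsMaj (S.rescale y r) 0 F.rmaj (F.rmaj ^ (-(m : ℝ)) * Real.exp (-T))
      (fun j => r⁻¹ • A j) := by
    unfold Fix.IsMaj at hA ⊢
    rw [Sys.rescale_isMajority hS y hr]
    simp only [smul_zero, add_zero, hcancel2]
    convert hA using 1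
    · ring
    · ring
  have hsep' : Sys.Separated (fun j => r⁻¹ • A j) grp
      (10 * Real.exp (CS * bQ Q T) * Real.sqrt (Real.exp (-T))) := by
    intro i j hij
    have h1 := hsep i j hij
    rw [← smul_sub, norm_smul, norm_inv, Real.norm_of_nonneg hr.le, le_inv_mul_iff₀ hr]
    linarith
  have hw' : IsWeight (fun z => w (y + r • z)) 0 1 := by
    refine ⟨fun z => hw.nonneg _, fun z => hw.le_one _, fun z z' => ?_, fun z hz => ?_⟩
    · refine (hw.lip _ _).trans (le_of_eq ?_)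
      rw [add_sub_add_left_eq_sub, ← smul_sub, norm_smul, Real.norm_of_nonneg hr.le]
      field_simp
    · have h1 := hw.supp hz
      rw [mem_ball, dist_eq_norm, add_sub_cancel_left, norm_smul, Real.norm_of_nonneg hr.le] at h1
      rw [mem_ball_zero_iff]
      nlinarith
  have key := H (S.rescale y r) T hT hyp _ hA' grp hgrp hsep' _ hw'
  -- translation
  have e1 : (S.rescale y r).intL Q (fun z => w (y + r • z)) = (r ^ m)⁻¹ * S.intL Q w := by
    unfold Sys.intL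
    rw [hS.rescale_intM Q y hr, hS.rescale_intD y hr]
    simp only [hcancel]
    ring
  have e2 : (S.rescale y r).intLam (fun z => w (y + r • z)) = (r ^ m)⁻¹ * S.intLam w := by
    rw [hS.rescale_intLam y hr]
    simp only [hcancel]
  have e3 : (S.rescale y r).intDfar (fun j => r⁻¹ • A j)
      (Real.exp (CS * bQ Q T) * Real.sqrt (Real.exp (-T))) (fun z => w (y + r • z))
      = (r ^ m)⁻¹ * S.intDfar A (Real.exp (CS * bQ Q T) * r * Real.sqrt (Real.exp (-T))) w := by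
    unfold Sys.intDfar
    rw [hS.rescale_integral y hr]
    congr 1
    refine integral_congr_ae (Filter.Eventually.of_forall fun q => ?_)
    simp only [hcancel]
    congr 1
    have hiff : ((r⁻¹ • (q.1 - y), r⁻¹ • q.2) : E m × E n) ∈ {q : E m × E n |
          Real.exp (CS * bQ Q T) * Real.sqrt (Real.exp (-T)) < Sys.distA (fun j => r⁻¹ • A j) q.2}
        ↔ q ∈ {q : E m × E n |
          Real.exp (CS * bQ Q T) * r * Real.sqrt (Real.exp (-T)) < Sys.distA A q.2} := by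
      simp only [mem_setOf_eq]
      rw [distA_smul (inv_pos.2 hr), lt_inv_mul_iff₀ hr]
      constructor <;> intro h <;> linarith
    by_cases hq : q ∈ {q : E m × E n |
          Real.exp (CS * bQ Q T) * r * Real.sqrt (Real.exp (-T)) < Sys.distA A q.2}
    · rw [indicator_of_mem hq, indicator_of_mem (hiff.2 hq)]
      show tr ((S.rescale y r).B _) = tr (S.B q)
      simp only [Sys.rescale, hcancel, hcancel2]
    · rw [indicator_of_notMem hq, indicator_of_notMem (fun h => hq (hiff.1 h))]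
  rw [e1, e2, e3] at key
  have h2 := mul_le_mul_of_nonneg_right key hrm.le
  have h3 : ((r ^ m)⁻¹ * S.intL Q w - CQ * ((r ^ m)⁻¹ * S.intLam w)
      + Real.log T ^ 2 / T * ((r ^ m)⁻¹ *
        S.intDfar A (Real.exp (CS * bQ Q T) * r * Real.sqrt (Real.exp (-T))) w)) * r ^ m
      = S.intL Q w - CQ * S.intLam w + Real.log T ^ 2 / T
        * S.intDfar A (Real.exp (CS * bQ Q T) * r * Real.sqrt (Real.exp (-T))) w := by
    field_simp
  rw [h3] at h2
  exact h2

end Claimed.Agent.R322.Sx
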