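import Claimed.Agent.R322.Sx.Ctl

/-!
# R322 / Sx / Cells / Lin : the functional `w ↦ ∫ w d(L - C_Q Λ + c D_far)`

Linearity over finite decompositions of bounded measurable weights supported in `closedBall 0 3`
(`Phi_sum`), the crude bound by `2 ∫ w dτ` for nonnegative weights (`Phi_tail`), comparison of the far
tilts of matched lists (`intDfar_le`).
-/

set_option autoImplicit false
namespace Claimed.Agent.R322.Sx
open MeasureTheory Set Metric Filter Topology
open scoped ENNReal NNReal InnerProductSpace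
variable {m n Q : ℕ}

/-- the functional `w ↦ ∫ w d(L - C_Q Λ + c D_far)`. -/
noncomputable def Sys.Phi (S : Sys m n) (CQ c : ℝ) (A : Fin Q → E n) (ϱ : ℝ) (w : E m → ℝ) : ℝ :=
  S.intL Q w - CQ * S.intLam w + c * S.intDfar A ϱ w

/-- its density with respect to `μ` (apart from the reference volume). -/
noncomputable def Sys.psi (S : Sys m n) (CQ c : ℝ) (A : Fin Q → E n) (ϱ : ℝ) (q : E m × E n) : ℝ :=
  2 - S.e q - CQ * S.lam q + c * {q : E m × E n | ϱ < Sys.distA A q.2}.indicator S.e q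

/-- bounded measurable weights supported in `closedBall 0 3`. -/
structure Nice (w : E m → ℝ) (C : ℝ) : Prop where
  meas : Measurable w
  bdd : ∀ y, |w y| ≤ C
  supp : Function.support w ⊆ closedBall (0 : E m) 3

theorem measurableSet_far (A : Fin Q → E n) (ϱ : ℝ) :
    MeasurableSet {q : E m × E n | ϱ < Sys.distA A q.2} :=
  measurableSet_lt measurable_const ((Sys.continuous_distA A).measurable.comp measurable_snd)

section Root

variable {S : Sys m n} {κ Cg T : ℝ} {χ : E m → ℝ}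

theorem Nice.int (hR : Root S Q κ Cg T χ) {w : E m → ℝ} {C : ℝ} (hw : Nice w C)
    {g : E m × E n → ℝ} (hg : Measurable g) (G0 : ℝ) (hb : ∀ q, |g q| ≤ G0) :
    Integrable (fun q => w q.1 * g q) S.μ := by
  refine hR.hyp.valid.integrable_of_baseCpt ((hw.meas.comp measurable_fst).mul hg)
    ⟨closedBall (0 : E m) 3, isCompact_closedBall _ _, cmpl_K_subset hR, fun q hq => ?_⟩
    (C * G0) (Eventually.of_forall fun q => ?_)
  · have : w q.1 = 0 := by
      by_contra h
      exact hq (hw.supp h)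
    simp only [this, zero_mul]
  · rw [abs_mul]
    exact mul_le_mul (hw.bdd q.1) (hb q) (abs_nonneg _) ((abs_nonneg _).trans (hw.bdd q.1))

theorem Nice.int_vol (hR : Root S Q κ Cg T χ) {w : E m → ℝ} {C : ℝ} (hw : Nice w C) :
    IntegrableOn (fun y => w y * S.a y) S.Ω := by
  have hV := hR.hyp.valid
  have h1 : Integrable (fun y => w y * S.a y) := by
    have hsupp : Function.support (fun y => w y * S.a y) ⊆ closedBall (0 : E m) 3 := by
      intro y hy
      apply hw.supp
      intro h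
      exact hy (by simp [h])
    rw [← integrableOn_iff_integrable_of_support_subset hsupp]
    refine Measure.integrableOn_of_bounded (M := C * 2) measure_closedBall_lt_top.ne
      (hw.meas.mul hV.a_contDiff.continuous.measurable).aestronglyMeasurable
      (Eventually.of_forall fun y => ?_)
    rw [Real.norm_eq_abs, abs_mul]
    have h2 : |S.a y| ≤ 2 := by
      rw [abs_of_nonneg (by have := hV.a_lower y; linarith)]
      exact hV.a_upper y
    exact mul_le_mul (hw.bdd y) h2 (abs_nonneg _) ((abs_nonneg _).trans (hw.bdd y))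
  exact h1.integrableOn

theorem meas_far_e (hV : S.Valid) (A : Fin Q → E n) (ϱ : ℝ) :
    Measurable ({q : E m × E n | ϱ < Sys.distA A q.2}.indicator S.e) :=
  hV.meas_e.indicator (measurableSet_far A ϱ)

theorem abs_far_e_le (hV : S.Valid) (A : Fin Q → E n) (ϱ : ℝ) (q : E m × E n) :
    |{q : E m × E n | ϱ < Sys.distA A q.2}.indicator S.e q| ≤ m := by
  by_cases hq : q ∈ {q : E m × E n | ϱ < Sys.distA A q.2}
  · rw [indicator_of_mem hq, abs_of_nonneg (hV.e_nonneg q)]
    exact hV.e_le q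
  · rw [indicator_of_notMem hq, abs_zero]
    exact Nat.cast_nonneg m

theorem Phi_eq (hR : Root S Q κ Cg T χ) (CQ c : ℝ) (A : Fin Q → E n) (ϱ : ℝ) {w : E m → ℝ} {C : ℝ}
    (hw : Nice w C) :
    S.Phi CQ c A ϱ w = (∫ q, w q.1 * S.psi CQ c A ϱ q ∂S.μ) - 2 * Q * ∫ y in S.Ω, w y * S.a y := by
  have hV := hR.hyp.valid
  have i1 : Integrable (fun q : E m × E n => w q.1 * 1) S.μ :=
    hw.int hR measurable_const 1 (fun _ => by simp)
  have i2 : Integrable (fun q => w q.1 * S.e q) S.μ :=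
    hw.int hR hV.meas_e m (fun q => by rw [abs_of_nonneg (hV.e_nonneg q)]; exact hV.e_le q)
  have i3 : Integrable (fun q => w q.1 * S.lam q) S.μ :=
    hw.int hR hV.meas_lam S.Cg (fun q => by
      rw [abs_of_nonneg (hV.lam_nonneg q)]; exact hV.lam_le q)
  have i4 : Integrable (fun q => w q.1
      * {q : E m × E n | ϱ < Sys.distA A q.2}.indicator S.e q) S.μ :=
    hw.int hR (meas_far_e hV A ϱ) m (abs_far_e_le hV A ϱ)
  have e : ∫ q, w q.1 * S.psi CQ c A ϱ q ∂S.μ
      = 2 * (∫ q, w q.1 * 1 ∂S.μ) - (∫ q, w q.1 * S.e q ∂S.μ) - CQ * (∫ q, w q.1 * S.lam q ∂S.μ)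
        + c * ∫ q, w q.1 * {q : E m × E n | ϱ < Sys.distA A q.2}.indicator S.e q ∂S.μ := by
    have j1 : Integrable (fun q : E m × E n => 2 * (w q.1 * 1)) S.μ := i1.const_mul 2
    have j12 : Integrable (fun q => 2 * (w q.1 * 1) - w q.1 * S.e q) S.μ := j1.sub i2
    have j3 : Integrable (fun q => CQ * (w q.1 * S.lam q)) S.μ := i3.const_mul CQ
    have j123 : Integrable (fun q => 2 * (w q.1 * 1) - w q.1 * S.e q - CQ * (w q.1 * S.lam q)) S.μ :=
      j12.sub j3
    have j4 : Integrable (fun q => c * (w q.1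
        * {q : E m × E n | ϱ < Sys.distA A q.2}.indicator S.e q)) S.μ := i4.const_mul c
    have : (fun q => w q.1 * S.psi CQ c A ϱ q)
        = fun q => (2 * (w q.1 * 1) - w q.1 * S.e q - CQ * (w q.1 * S.lam q))
          + c * (w q.1 * {q : E m × E n | ϱ < Sys.distA A q.2}.indicator S.e q) := by
      funext q
      simp only [Sys.psi]
      ring
    rw [this, integral_add j123 j4, integral_sub j12 j3, integral_sub j1 i2, integral_const_mul,
      integral_const_mul, integral_const_mul]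
  rw [e]
  unfold Sys.Phi Sys.intL Sys.intM Sys.intD Sys.intLam Sys.intDfar
  simp only [mul_one]
  ring

theorem Phi_sum (hR : Root S Q κ Cg T χ) (CQ c : ℝ) (A : Fin Q → E n) (ϱ : ℝ) {ι : Type*}
    (Y : Finset ι) (cf : ι → ℝ) (wf : ι → E m → ℝ) (Cf : ι → ℝ) {W w' : E m → ℝ} {CW C' : ℝ}
    (hW : Nice W CW) (hwf : ∀ y ∈ Y, Nice (wf y) (Cf y)) (hw' : Nice w' C')
    (hdec : ∀ z, W z = ∑ y ∈ Y, cf y * wf y z + w' z) :
    S.Phi CQ c A ϱ W = ∑ y ∈ Y, cf y * S.Phi CQ c A ϱ (wf y) + S.Phi CQ c A ϱ w' := by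
  have hV := hR.hyp.valid
  have hψm : Measurable (S.psi CQ c A ϱ) := by
    unfold Sys.psi
    exact ((measurable_const.sub hV.meas_e).sub (measurable_const.mul hV.meas_lam)).add
      (measurable_const.mul (meas_far_e hV A ϱ))
  have hψb : ∀ q, |S.psi CQ c A ϱ q| ≤ 2 + m + |CQ| * S.Cg + |c| * m := by
    intro q
    unfold Sys.psi
    have h1 : |S.e q| ≤ m := by rw [abs_of_nonneg (hV.e_nonneg q)]; exact hV.e_le q
    have h2 : |CQ * S.lam q| ≤ |CQ| * S.Cg := by
      rw [abs_mul, abs_of_nonneg (hV.lam_nonneg q)]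
      exact mul_le_mul_of_nonneg_left (hV.lam_le q) (abs_nonneg _)
    have h3 : |c * {q : E m × E n | ϱ < Sys.distA A q.2}.indicator S.e q| ≤ |c| * m := by
      rw [abs_mul]
      exact mul_le_mul_of_nonneg_left (abs_far_e_le hV A ϱ q) (abs_nonneg _)
    calc |2 - S.e q - CQ * S.lam q + c * {q : E m × E n | ϱ < Sys.distA A q.2}.indicator S.e q|
        ≤ |2 - S.e q - CQ * S.lam q|
          + |c * {q : E m × E n | ϱ < Sys.distA A q.2}.indicator S.e q| := abs_add_le _ _
      _ ≤ (|2 - S.e q| + |CQ * S.lam q|)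
          + |c * {q : E m × E n | ϱ < Sys.distA A q.2}.indicator S.e q| := by
          gcongr; exact abs_sub _ _
      _ ≤ ((|(2 : ℝ)| + |S.e q|) + |CQ * S.lam q|)
          + |c * {q : E m × E n | ϱ < Sys.distA A q.2}.indicator S.e q| := by
          gcongr; exact abs_sub _ _
      _ ≤ _ := by
          rw [abs_of_nonneg (by norm_num : (0 : ℝ) ≤ 2)]
          linarith
  have iy : ∀ y ∈ Y, Integrable (fun q => wf y q.1 * S.psi CQ c A ϱ q) S.μ :=
    fun y hy => (hwf y hy).int hR hψm _ hψb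
  have i' : Integrable (fun q => w' q.1 * S.psi CQ c A ϱ q) S.μ := hw'.int hR hψm _ hψb
  have e1 : ∫ q, W q.1 * S.psi CQ c A ϱ q ∂S.μ
      = ∑ y ∈ Y, cf y * (∫ q, wf y q.1 * S.psi CQ c A ϱ q ∂S.μ)
        + ∫ q, w' q.1 * S.psi CQ c A ϱ q ∂S.μ := by
    have : (fun q : E m × E n => W q.1 * S.psi CQ c A ϱ q)
        = fun q => (∑ y ∈ Y, cf y * (wf y q.1 * S.psi CQ c A ϱ q)) + w' q.1 * S.psi CQ c A ϱ q := by
      funext q
      rw [hdec, add_mul, Finset.sum_mul]
      congr 1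
      exact Finset.sum_congr rfl fun y _ => by ring
    rw [this, integral_add (integrable_finsetSum _ fun y hy => (iy y hy).const_mul _) i',
      integral_finsetSum _ fun y hy => (iy y hy).const_mul _]
    congr 1
    exact Finset.sum_congr rfl fun y _ => integral_const_mul _ _
  have jy : ∀ y ∈ Y, IntegrableOn (fun z => wf y z * S.a z) S.Ω := fun y hy => (hwf y hy).int_vol hR
  have j' := hw'.int_vol hR
  have e2 : ∫ z in S.Ω, W z * S.a z
      = ∑ y ∈ Y, cf y * (∫ z in S.Ω, wf y z * S.a z) + ∫ z in S.Ω, w' z * S.a z := by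
    have : (fun z : E m => W z * S.a z)
        = fun z => (∑ y ∈ Y, cf y * (wf y z * S.a z)) + w' z * S.a z := by
      funext z
      rw [hdec, add_mul, Finset.sum_mul]
      congr 1
      exact Finset.sum_congr rfl fun y _ => by ring
    rw [this, integral_add (integrable_finsetSum _ fun y hy => (jy y hy).const_mul _) j',
      integral_finsetSum _ fun y hy => (jy y hy).const_mul _]
    congr 1
    exact Finset.sum_congr rfl fun y _ => integral_const_mul _ _
  have e3 : ∑ y ∈ Y, cf y * S.Phi CQ c A ϱ (wf y)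
      = ∑ y ∈ Y, cf y * (∫ q, wf y q.1 * S.psi CQ c A ϱ q ∂S.μ)
        - 2 * Q * ∑ y ∈ Y, cf y * (∫ z in S.Ω, wf y z * S.a z) := by
    rw [Finset.mul_sum, ← Finset.sum_sub_distrib]
    refine Finset.sum_congr rfl fun y hy => ?_
    rw [Phi_eq hR CQ c A ϱ (hwf y hy)]
    ring
  rw [Phi_eq hR CQ c A ϱ hW, Phi_eq hR CQ c A ϱ hw', e1, e2, e3]
  ring

end Root


section Root2

variable {S : Sys m n} {κ Cg T : ℝ} {χ : E m → ℝ}

theorem Nice.int_tau (hR : Root S Q κ Cg T χ) {w : E m → ℝ} {C : ℝ} (hw : Nice w C) :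
    Integrable w (S.tau Q) := by
  rw [← integrableOn_iff_integrable_of_support_subset hw.supp]
  exact Measure.integrableOn_of_bounded (M := C)
    (lt_of_le_of_lt (cmpl_tau_K_le hR) ENNReal.ofReal_lt_top).ne hw.meas.aestronglyMeasurable
    (Eventually.of_forall fun y => by rw [Real.norm_eq_abs]; exact hw.bdd y)

theorem psi_le_two (hV : S.Valid) {CQ c : ℝ} (hCQ : 0 ≤ CQ) (hc1 : c ≤ 1) (A : Fin Q → E n)
    (ϱ : ℝ) (q : E m × E n) : S.psi CQ c A ϱ q ≤ 2 := by
  unfold Sys.psi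
  have he := hV.e_nonneg q
  have hl := hV.lam_nonneg q
  have h1 : 0 ≤ CQ * S.lam q := mul_nonneg hCQ hl
  by_cases hq : q ∈ {q : E m × E n | ϱ < Sys.distA A q.2}
  · rw [indicator_of_mem hq]
    nlinarith
  · rw [indicator_of_notMem hq]
    linarith

/-- the functional of a nonnegative weight is at most twice its `τ`-integral. -/
theorem Phi_tail (hR : Root S Q κ Cg T χ) {CQ c : ℝ} (hCQ : 0 ≤ CQ) (hc1 : c ≤ 1)
    (A : Fin Q → E n) (ϱ : ℝ) {w' : E m → ℝ} {C' : ℝ} (hw' : Nice w' C') (h0 : ∀ z, 0 ≤ w' z) :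
    S.Phi CQ c A ϱ w' ≤ 2 * ∫ z, w' z ∂(S.tau Q) := by
  have hV := hR.hyp.valid
  have i1 : Integrable (fun q : E m × E n => w' q.1 * 2) S.μ :=
    hw'.int hR measurable_const 2 (fun _ => by simp)
  have h1 : ∫ q, w' q.1 * S.psi CQ c A ϱ q ∂S.μ ≤ ∫ q, w' q.1 * 2 ∂S.μ := by
    by_cases hi : Integrable (fun q => w' q.1 * S.psi CQ c A ϱ q) S.μ
    · exact integral_mono hi i1 fun q =>
        mul_le_mul_of_nonneg_left (psi_le_two hV hCQ hc1 A ϱ q) (h0 q.1)
    · rw [integral_undef hi]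
      exact integral_nonneg fun q => mul_nonneg (h0 q.1) (by norm_num)
  have h2 : ∫ q, w' q.1 * 2 ∂S.μ = 2 * ∫ q, w' q.1 ∂S.μ := by
    rw [integral_mul_const]; ring
  have h3 := hV.abs_intM_le Q hw'.meas (isCompact_closedBall _ _) (cmpl_K_subset hR) hw'.supp C'
    hw'.bdd
  have h4 : ∫ y, |w' y| ∂(S.absM Q) ≤ ∫ z, w' z ∂(S.tau Q) := by
    have e : (fun y => |w' y|) = w' := by funext y; exact abs_of_nonneg (h0 y)
    rw [e]
    exact integral_mono_measure (ctl_absM_le S Q) (Eventually.of_forall h0) (hw'.int_tau hR)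
  have h5 := le_abs_self (S.intM Q w')
  rw [Phi_eq hR CQ c A ϱ hw']
  unfold Sys.intM at h3 h5
  linarith

theorem IsWeight.cont_of_pos {w : E m → ℝ} {y : E m} {r : ℝ} (hr : 0 < r) (hw : IsWeight w y r) :
    Continuous w := by
  have : LipschitzWith (Real.toNNReal r⁻¹) w := by
    apply LipschitzWith.of_dist_le_mul
    intro z z'
    have := hw.lip z z'
    rw [Real.coe_toNNReal _ (inv_pos.2 hr).le, Real.dist_eq, dist_eq_norm]
    exact this
  exact this.continuous

theorem IsWeight.nice {w : E m → ℝ} {y : E m} {r : ℝ} (hr : 0 < r) (hw : IsWeight w y r)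
    (hb : ball y r ⊆ closedBall (0 : E m) 3) : Nice w 1 :=
  ⟨(hw.cont_of_pos hr).measurable, fun z => by
    rw [abs_of_nonneg (hw.nonneg z)]; exact hw.le_one z, hw.supp.trans hb⟩

/-- comparison of the far tilts of two matched lists. -/
theorem intDfar_le (hR : Root S Q κ Cg T χ) {w : E m → ℝ} {C : ℝ} (hw : Nice w C)
    (h0 : ∀ z, 0 ≤ w z) {A A' : Fin Q → E n} {ε ϱ ϱ' : ℝ} (hM : Sys.Matched A A' ε) (hε : 0 ≤ ε)
    (hϱ : ϱ' + ε ≤ ϱ) : S.intDfar A ϱ w ≤ S.intDfar A' ϱ' w := by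
  have hV := hR.hyp.valid
  unfold Sys.intDfar
  refine integral_mono (hw.int hR (meas_far_e hV A ϱ) m (abs_far_e_le hV A ϱ))
    (hw.int hR (meas_far_e hV A' ϱ') m (abs_far_e_le hV A' ϱ')) fun q => ?_
  refine mul_le_mul_of_nonneg_left ?_ (h0 q.1)
  refine indicator_le_indicator_of_subset ?_ (fun q => hV.e_nonneg q) q
  intro q hq
  have h1 := hM.distA_le hε q.2
  have h2 : ϱ < Sys.distA A q.2 := hq
  show ϱ' < Sys.distA A' q.2
  linarith

theorem intDfar_nonneg (hV : S.Valid) {w : E m → ℝ} (h0 : ∀ z, 0 ≤ w z) (A : Fin Q → E n)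
    (ϱ : ℝ) : 0 ≤ S.intDfar A ϱ w := by
  unfold Sys.intDfar
  exact integral_nonneg fun q => mul_nonneg (h0 q.1)
    (indicator_nonneg (fun q _ => hV.e_nonneg q) q)

end Root2

end Claimed.Agent.R322.Sx
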