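import Claimed.Agent.R322.Sx.Moment.Avg

/-!
# R322 / Sx / Cells / Num : numerics for the Gaussian summation `sep_gauss`
-/

set_option autoImplicit false

namespace Claimed.Agent.R322.Sx

open MeasureTheory Set Metric Filter Topology
open scoped ENNReal NNReal InnerProductSpace

/-! ### numerics for the Gaussian summation -/

/-- `(log t)²/t` is antitone on `[e², ∞)`. -/
theorem sg_cT_anti {s t : ℝ} (hs : Real.exp 2 ≤ s) (hst : s ≤ t) :
    Real.log t ^ 2 / t ≤ Real.log s ^ 2 / s := by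
  have h := Real.log_div_self_rpow_antitoneOn (a := 1 / 2) (by norm_num)
  have e2 : ((1 : ℝ) / 2)⁻¹ = 2 := by norm_num
  rw [e2] at h
  have hs0 : 0 < s := lt_of_lt_of_le (Real.exp_pos _) hs
  have ht0 : 0 < t := lt_of_lt_of_le hs0 hst
  have h1 := h (show s ∈ Ici (Real.exp 2) from hs) (show t ∈ Ici (Real.exp 2) from hs.trans hst) hst
  simp only at h1
  have hlt : 0 ≤ Real.log t := Real.log_nonneg (by
    have := Real.add_one_le_exp (2 : ℝ); linarith)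
  have h2 : 0 ≤ Real.log t / t ^ (1 / 2 : ℝ) := by positivity
  have h3 := pow_le_pow_left₀ h2 h1 2
  have e : ∀ x : ℝ, 0 < x → (Real.log x / x ^ (1 / 2 : ℝ)) ^ 2 = Real.log x ^ 2 / x := by
    intro x hx
    rw [div_pow, ← Real.rpow_natCast (x ^ (1 / 2 : ℝ)) 2, ← Real.rpow_mul hx.le]
    norm_num
  rwa [e t ht0, e s hs0] at h3

theorem sg_cT_le_one : ∀ᶠ a : ℝ in atTop, Real.log a ^ 2 / a ≤ 1 := by
  have h := Real.tendsto_pow_log_div_mul_add_atTop 1 0 2 one_ne_zero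
  filter_upwards [h.eventually (ge_mem_nhds one_pos)] with a ha
  simpa using ha

/-- polynomials are dominated by `exp (b_Q)`. -/
theorem sg_poly_le_exp_bQ (Q : ℕ) (C N : ℝ) : ∀ᶠ a : ℝ in atTop, C * a ^ N ≤ Real.exp (bQ Q a) := by
  obtain ⟨x0, hb⟩ := bQ_ge Q
  have hlog : Tendsto Real.log atTop atTop := Real.tendsto_log_atTop
  filter_upwards [eventually_ge_atTop x0, eventually_ge_atTop 1, eventually_ge_atTop C,
    hlog.eventually_ge_atTop (max 1 (N + 1))] with a h0 h1 hC hl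
  have ha0 : 0 < a := by linarith
  have hl1 : 1 ≤ Real.log a := (le_max_left _ _).trans hl
  have hlN : N + 1 ≤ Real.log a := (le_max_right _ _).trans hl
  have h2 : Real.log a ^ 2 ≤ Real.log a ^ 201 := pow_le_pow_right₀ hl1 (by norm_num)
  have h3 : (N + 1) * Real.log a ≤ bQ Q a := by
    have := hb a h0
    nlinarith
  have h4 : a ^ (N + 1) ≤ Real.exp (bQ Q a) := by
    rw [Real.rpow_def_of_pos ha0]
    exact Real.exp_le_exp.2 (by linarith)
  have h5 : C * a ^ N ≤ a * a ^ N := mul_le_mul_of_nonneg_right hC (by positivity)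
  have h6 : a * a ^ N = a ^ (N + 1) := by
    rw [Real.rpow_add ha0, Real.rpow_one]; ring
  linarith

/-- the common cell density. -/
noncomputable def sgD (Cpol M a : ℝ) : ℝ := Cpol * a ^ M * Real.exp (-a)

theorem sg_num (Q : ℕ) (Cpol M Pe C4 C5 N5 CS A6 p6 d0 Tsep : ℝ) (hCpol : 1 ≤ Cpol) (hM : 0 ≤ M)
    (hPe : 0 ≤ Pe) (hCS : 0 < CS) (hd0 : 0 < d0) :
    ∃ a0 : ℝ, 2 ≤ a0 ∧ ∀ a, a0 ≤ a →
      0 < sgD Cpol M a ∧ Real.exp (-a) ≤ sgD Cpol M a ∧ a / 2 ≤ lev (sgD Cpol M a) ∧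
      lev (sgD Cpol M a) ≤ a ∧ Tsep ≤ lev (sgD Cpol M a) ∧
      Real.exp (-lev (sgD Cpol M a)) = sgD Cpol M a ∧
      C4 * lev (sgD Cpol M a) ^ (-(Pe + M + 1)) * sgD Cpol M a ≤ a ^ (-Pe) * Real.exp (-a) / 2 ∧
      A6 * a ^ p6 * sgD Cpol M a ≤ d0 ∧
      Real.exp (CS * bQ Q (lev (sgD Cpol M a))) * (Real.sqrt Cpol * a ^ M) + C5 * a ^ N5
        ≤ Real.exp ((CS + 1) * bQ Q a) ∧
      Real.log a ^ 2 / a ≤ Real.log (lev (sgD Cpol M a)) ^ 2 / lev (sgD Cpol M a) ∧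
      0 ≤ Real.log a ^ 2 / a ∧ Real.log a ^ 2 / a ≤ 1 := by
  obtain ⟨x1, hx1, h1⟩ := sm_exp Cpol M 0 (1 / 2) (by norm_num)
  obtain ⟨x2, hx2, h2⟩ := ctl_lev_small (A6 * Cpol) (p6 + M) d0 hd0
  obtain ⟨x3, h3⟩ := eventually_atTop.1 (sg_poly_le_exp_bQ Q (2 * Real.sqrt Cpol) M)
  obtain ⟨x4, h4⟩ := eventually_atTop.1 (sg_poly_le_exp_bQ Q (2 * C5) N5)
  obtain ⟨x5, h5⟩ := eventually_atTop.1 sg_cT_le_one
  obtain ⟨x6, h6⟩ := bQ_monotoneOn Q
  obtain ⟨x7, h7⟩ := bQ_ge Q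
  set C7 : ℝ := |C4| * (1 / 2 : ℝ) ^ (-(Pe + M + 1)) * Cpol with hC7
  have hC70 : 0 ≤ C7 := by positivity
  suffices hev : ∀ᶠ a : ℝ in atTop,
      0 < sgD Cpol M a ∧ Real.exp (-a) ≤ sgD Cpol M a ∧ a / 2 ≤ lev (sgD Cpol M a) ∧
      lev (sgD Cpol M a) ≤ a ∧ Tsep ≤ lev (sgD Cpol M a) ∧
      Real.exp (-lev (sgD Cpol M a)) = sgD Cpol M a ∧
      C4 * lev (sgD Cpol M a) ^ (-(Pe + M + 1)) * sgD Cpol M a ≤ a ^ (-Pe) * Real.exp (-a) / 2 ∧
      A6 * a ^ p6 * sgD Cpol M a ≤ d0 ∧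
      Real.exp (CS * bQ Q (lev (sgD Cpol M a))) * (Real.sqrt Cpol * a ^ M) + C5 * a ^ N5
        ≤ Real.exp ((CS + 1) * bQ Q a) ∧
      Real.log a ^ 2 / a ≤ Real.log (lev (sgD Cpol M a)) ^ 2 / lev (sgD Cpol M a) ∧
      0 ≤ Real.log a ^ 2 / a ∧ Real.log a ^ 2 / a ≤ 1 by
    obtain ⟨a0, ha0⟩ := eventually_atTop.1 hev
    exact ⟨max a0 2, le_max_right _ _, fun a ha => ha0 a ((le_max_left _ _).trans ha)⟩
  filter_upwards [eventually_ge_atTop x1, eventually_ge_atTop x2, eventually_ge_atTop x3,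
    eventually_ge_atTop x4, eventually_ge_atTop x5, eventually_ge_atTop (2 * x6),
    eventually_ge_atTop x7, eventually_ge_atTop (2 * Tsep), eventually_ge_atTop (2 * Real.exp 2),
    eventually_ge_atTop 2, eventually_ge_atTop (2 * C7)] with a b1 b2 b3 b4 b5 b6 b7 b8 b9 b10 b11
  have ha0 : 0 < a := by linarith
  have ha1 : 1 ≤ a := by linarith
  have haM : 1 ≤ a ^ M := Real.one_le_rpow ha1 hM
  have hd : 0 < sgD Cpol M a := by unfold sgD; positivity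
  have hge : Real.exp (-a) ≤ sgD Cpol M a := by
    unfold sgD
    have : 1 ≤ Cpol * a ^ M := by nlinarith
    have h0 := Real.exp_pos (-a)
    nlinarith
  have hle : sgD Cpol M a ≤ Real.exp (-(a / 2)) := by
    have h8 := h1 a b1
    rw [neg_zero, Real.rpow_zero] at h8
    have e : Real.exp (-a) = Real.exp (-(1 / 2) * a) * Real.exp (-(a / 2)) := by
      rw [← Real.exp_add]; congr 1; ring
    unfold sgD
    rw [e, ← mul_assoc]
    have h0 := Real.exp_pos (-(a / 2))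
    nlinarith
  have hT1 : a / 2 ≤ lev (sgD Cpol M a) := by
    unfold lev
    have := Real.log_le_log hd hle
    rw [Real.log_exp] at this
    linarith
  have hT2 : lev (sgD Cpol M a) ≤ a := by
    unfold lev
    have := Real.log_le_log (Real.exp_pos _) hge
    rw [Real.log_exp] at this
    linarith
  have hexp : Real.exp (-lev (sgD Cpol M a)) = sgD Cpol M a := by
    unfold lev
    rw [neg_neg, Real.exp_log hd]
  have hla : 0 ≤ Real.log a := Real.log_nonneg ha1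
  refine ⟨hd, hge, hT1, hT2, by linarith, hexp, ?_, ?_, ?_, ?_, by positivity, h5 a b5⟩
  · generalize lev (sgD Cpol M a) = Tc at *
    have hP' : 0 ≤ Pe + M + 1 := by linarith
    have hTc0 : 0 < Tc := by linarith
    have h8 : Tc ^ (-(Pe + M + 1)) ≤ (a / 2) ^ (-(Pe + M + 1)) :=
      Real.rpow_le_rpow_of_nonpos (by linarith) hT1 (by linarith)
    have h9 : (a / 2) ^ (-(Pe + M + 1)) = a ^ (-(Pe + M + 1)) * (1 / 2 : ℝ) ^ (-(Pe + M + 1)) := by
      rw [← Real.mul_rpow ha0.le (by norm_num)]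
      congr 1; ring
    have h10 : a ^ (-(Pe + M + 1)) * a ^ M = a ^ (-Pe) * a⁻¹ := by
      rw [← Real.rpow_add ha0, ← Real.rpow_neg_one, ← Real.rpow_add ha0]
      congr 1; ring
    have hTP : 0 ≤ Tc ^ (-(Pe + M + 1)) := by positivity
    have haP : 0 < a ^ (-Pe) := Real.rpow_pos_of_pos ha0 _
    have he := Real.exp_pos (-a)
    unfold sgD
    calc C4 * Tc ^ (-(Pe + M + 1)) * (Cpol * a ^ M * Real.exp (-a))
        ≤ |C4| * Tc ^ (-(Pe + M + 1)) * (Cpol * a ^ M * Real.exp (-a)) := by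
          gcongr
          exact le_abs_self _
      _ ≤ |C4| * (a / 2) ^ (-(Pe + M + 1)) * (Cpol * a ^ M * Real.exp (-a)) := by gcongr
      _ = C7 * (a ^ (-(Pe + M + 1)) * a ^ M) * Real.exp (-a) := by rw [h9, hC7]; ring
      _ = (C7 * a⁻¹) * (a ^ (-Pe) * Real.exp (-a)) := by rw [h10]; ring
      _ ≤ (1 / 2) * (a ^ (-Pe) * Real.exp (-a)) := by
          apply mul_le_mul_of_nonneg_right _ (by positivity)
          rw [← div_eq_mul_inv, div_le_iff₀ ha0]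
          linarith
      _ = _ := by ring
  · have h8 := h2 a b2
    unfold sgD
    calc A6 * a ^ p6 * (Cpol * a ^ M * Real.exp (-a))
        = A6 * Cpol * (a ^ p6 * a ^ M) * Real.exp (-a) := by ring
      _ = A6 * Cpol * a ^ (p6 + M) * Real.exp (-a) := by rw [Real.rpow_add ha0]
      _ ≤ d0 := h8
  · have hb0 : 0 ≤ bQ Q a := by
      have := h7 a b7
      have h9 : 0 ≤ Real.log a ^ 201 := by positivity
      linarith
    have hmono : bQ Q (lev (sgD Cpol M a)) ≤ bQ Q a :=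
      h6 (show lev (sgD Cpol M a) ∈ Ici x6 from by
        show x6 ≤ _
        linarith) (show a ∈ Ici x6 from by
        show x6 ≤ a
        nlinarith) hT2
    have h8 := h3 a b3
    have h9 := h4 a b4
    have h10 : Real.exp (CS * bQ Q (lev (sgD Cpol M a))) ≤ Real.exp (CS * bQ Q a) :=
      Real.exp_le_exp.2 (mul_le_mul_of_nonneg_left hmono hCS.le)
    have h11 : 1 ≤ Real.exp (CS * bQ Q a) := Real.one_le_exp (by positivity)
    have h12 : Real.exp ((CS + 1) * bQ Q a) = Real.exp (CS * bQ Q a) * Real.exp (bQ Q a) := by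
      rw [← Real.exp_add]; congr 1; ring
    have h13 : 0 ≤ Real.sqrt Cpol * a ^ M := by positivity
    have h14 := Real.exp_pos (bQ Q a)
    rw [h12]
    calc Real.exp (CS * bQ Q (lev (sgD Cpol M a))) * (Real.sqrt Cpol * a ^ M) + C5 * a ^ N5
        ≤ Real.exp (CS * bQ Q a) * (Real.sqrt Cpol * a ^ M) + C5 * a ^ N5 := by gcongr
      _ ≤ Real.exp (CS * bQ Q a) * (Real.exp (bQ Q a) / 2) + Real.exp (bQ Q a) / 2 := by
          have : Real.sqrt Cpol * a ^ M ≤ Real.exp (bQ Q a) / 2 := by linarith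
          have h15 : C5 * a ^ N5 ≤ Real.exp (bQ Q a) / 2 := by linarith
          gcongr
      _ ≤ _ := by nlinarith
  · exact sg_cT_anti (by linarith) hT2

/-- the density of the dilated ball, renormalised by a polynomial factor, is below the cell density. -/
theorem sg_dens {Cb c2 J a t X : ℝ} {m : ℕ} (hCb : 0 < Cb) (hJ : 0 ≤ J) (ha : 0 < a) (hc2 : 0 < c2)
    (ht0 : 0 ≤ t) (ht : t ≤ c2 * a) (hX0 : 0 ≤ X) (hX : X ≤ c2 * a) :
    Cb * t ^ J * t ^ m * Real.exp (-a) * X ^ m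
      ≤ sgD (max 1 (Cb * c2 ^ J * c2 ^ (2 * m))) (J + 2 * (m : ℝ)) a := by
  unfold sgD
  have h1 : t ^ J ≤ (c2 * a) ^ J := Real.rpow_le_rpow ht0 ht hJ
  have h2 : t ^ m ≤ (c2 * a) ^ m := pow_le_pow_left₀ ht0 ht m
  have h3 : X ^ m ≤ (c2 * a) ^ m := pow_le_pow_left₀ hX0 hX m
  have he := Real.exp_pos (-a)
  have e1 : a ^ (J + 2 * (m : ℝ)) = a ^ J * (a ^ m * a ^ m) := by
    rw [Real.rpow_add ha, ← pow_add, ← Real.rpow_natCast a (m + m)]
    congr 2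
    push_cast; ring
  have e2 : (c2 * a) ^ J = c2 ^ J * a ^ J := Real.mul_rpow hc2.le ha.le
  have h4 : 0 ≤ a ^ J := by positivity
  have h5 : 0 ≤ c2 ^ J := by positivity
  calc Cb * t ^ J * t ^ m * Real.exp (-a) * X ^ m
      ≤ Cb * (c2 * a) ^ J * (c2 * a) ^ m * Real.exp (-a) * (c2 * a) ^ m := by gcongr
    _ = (Cb * c2 ^ J * c2 ^ (2 * m)) * a ^ (J + 2 * (m : ℝ)) * Real.exp (-a) := by
        rw [e1, e2, mul_pow, two_mul, pow_add]; ring
    _ ≤ max 1 (Cb * c2 ^ J * c2 ^ (2 * m)) * a ^ (J + 2 * (m : ℝ)) * Real.exp (-a) := by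
        gcongr
        exact le_max_right _ _

theorem sg_sqrt {Cpol M a : ℝ} (hC : 0 ≤ Cpol) (hM : 0 ≤ M) (ha : 1 ≤ a) :
    Real.sqrt (sgD Cpol M a) ≤ Real.sqrt Cpol * a ^ M * Real.sqrt (Real.exp (-a)) := by
  unfold sgD
  have h1 : 1 ≤ a ^ M := Real.one_le_rpow ha hM
  rw [Real.sqrt_mul (by positivity), Real.sqrt_mul hC]
  have : Real.sqrt (a ^ M) ≤ a ^ M := by
    rw [Real.sqrt_le_left (by positivity)]
    nlinarith
  gcongr

/-- the matching error of the chain between the central ball and a cell. -/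
theorem sg_eps {Cm Cl G Cc c2 J' Cpol M a v r ρm δ δ' dc R' : ℝ} (hCm : 0 < Cm) (hCl : 0 ≤ Cl)
    (hG : 0 ≤ G) (hCc : 0 < Cc) (hc2 : 0 < c2) (hJ' : 0 ≤ J') (hCpol : 1 ≤ Cpol) (hM : 0 ≤ M)
    (ha : 1 ≤ a) (hv : 0 < v) (hr0 : 0 ≤ r) (hr : r ≤ v) (hρ1 : ρm ≤ 1)
    (hδ' : δ' ≤ dc) (hR0 : 0 ≤ R') (hR' : R' ≤ c2 * a)
    (hD : Real.sqrt dc ≤ Real.sqrt Cpol * a ^ M * Real.sqrt δ) :
    Cm * (v * Real.sqrt (Cl * δ) + ρm * r * Real.sqrt (G * dc)) + Cc * R' ^ J' * v * Real.sqrt δ'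
      ≤ (Cm * (Real.sqrt Cl + Real.sqrt G) + Cc * c2 ^ J') * Real.sqrt Cpol * a ^ (J' + M) * v
        * Real.sqrt δ := by
  have ha0 : 0 < a := by linarith
  set D := Real.sqrt Cpol * a ^ M * Real.sqrt δ with hDdef
  have hs0 := Real.sqrt_nonneg δ
  have hC1 : 1 ≤ Real.sqrt Cpol := by
    rw [Real.le_sqrt' (by norm_num)]; simpa using hCpol
  have haM : 1 ≤ a ^ M := Real.one_le_rpow ha hM
  have haJ : 1 ≤ a ^ J' := Real.one_le_rpow ha hJ'
  have hsD : Real.sqrt δ ≤ D := by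
    rw [hDdef]
    have : 1 ≤ Real.sqrt Cpol * a ^ M := by nlinarith
    nlinarith
  have hD0 : 0 ≤ D := hs0.trans hsD
  have t1 : v * Real.sqrt (Cl * δ) ≤ Real.sqrt Cl * (v * D) := by
    rw [Real.sqrt_mul hCl]
    have : Real.sqrt Cl * Real.sqrt δ ≤ Real.sqrt Cl * D :=
      mul_le_mul_of_nonneg_left hsD (Real.sqrt_nonneg _)
    nlinarith
  have t2 : ρm * r * Real.sqrt (G * dc) ≤ Real.sqrt G * (v * D) := by
    rw [Real.sqrt_mul hG]
    have h1 : ρm * r ≤ 1 * v := mul_le_mul hρ1 hr hr0 (by norm_num)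
    have h2 : Real.sqrt G * Real.sqrt dc ≤ Real.sqrt G * D :=
      mul_le_mul_of_nonneg_left hD (Real.sqrt_nonneg _)
    calc ρm * r * (Real.sqrt G * Real.sqrt dc) ≤ (1 * v) * (Real.sqrt G * D) :=
          mul_le_mul h1 h2 (by positivity) (by positivity)
      _ = _ := by ring
  have t3 : Cc * R' ^ J' * v * Real.sqrt δ' ≤ Cc * c2 ^ J' * a ^ J' * (v * D) := by
    have h1 : R' ^ J' ≤ c2 ^ J' * a ^ J' := by
      rw [← Real.mul_rpow hc2.le ha0.le]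
      exact Real.rpow_le_rpow hR0 hR' hJ'
    have h2 : Real.sqrt δ' ≤ D := (Real.sqrt_le_sqrt hδ').trans hD
    calc Cc * R' ^ J' * v * Real.sqrt δ' ≤ Cc * (c2 ^ J' * a ^ J') * v * D := by gcongr
      _ = _ := by ring
  have hvD : 0 ≤ v * D := by positivity
  have t4 : Cm * (Real.sqrt Cl + Real.sqrt G) * (v * D)
      ≤ Cm * (Real.sqrt Cl + Real.sqrt G) * a ^ J' * (v * D) := by
    have : 0 ≤ Cm * (Real.sqrt Cl + Real.sqrt G) * (v * D) := by positivity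
    nlinarith
  have e : (Cm * (Real.sqrt Cl + Real.sqrt G) + Cc * c2 ^ J') * Real.sqrt Cpol * a ^ (J' + M) * v
        * Real.sqrt δ
      = Cm * (Real.sqrt Cl + Real.sqrt G) * a ^ J' * (v * D) + Cc * c2 ^ J' * a ^ J' * (v * D) := by
    rw [hDdef, Real.rpow_add ha0]; ring
  rw [e]
  have t5 : Cm * (v * Real.sqrt (Cl * δ) + ρm * r * Real.sqrt (G * dc))
      ≤ Cm * (Real.sqrt Cl + Real.sqrt G) * (v * D) := by
    have := mul_le_mul_of_nonneg_left (add_le_add t1 t2) hCm.le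
    linarith
  linarith

/-- the dilation factors of the chain. -/
theorem sg_geo {c a : ℝ} (hc : 4 < c) (ha : 2 ≤ a) :
    1 + a ≤ 128 * c ^ 2 * (1 + a) ∧ 128 * c ^ 2 * (1 + a) ≤ 256 * c ^ 2 * a ∧
    1 + a ≤ 4 * c * (1 + a) ∧ 4 * c * (1 + a) ≤ 256 * c ^ 2 * a ∧
    16 * (1 + a) ≤ 256 * c ^ 2 * a ∧ 1 ≤ 256 * c ^ 2 * a := by
  have h1 : 16 ≤ c ^ 2 := by nlinarith
  have h2 : c ≤ c ^ 2 := by nlinarith
  have h3 : 0 ≤ c ^ 2 * a := by positivity
  have h4 : c ^ 2 * 1 ≤ c ^ 2 * a := mul_le_mul_of_nonneg_left (by linarith) (by positivity)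
  have h5 : 16 * a ≤ c ^ 2 * a := mul_le_mul_of_nonneg_right h1 (by linarith)
  have h6 : c * a ≤ c ^ 2 * a := mul_le_mul_of_nonneg_right h2 (by linarith)
  have h7 : 4 * a ≤ c * a := mul_le_mul_of_nonneg_right hc.le (by linarith)
  refine ⟨by nlinarith, by nlinarith, by nlinarith, by nlinarith, by nlinarith, by nlinarith⟩

theorem sg_T4 {c2 a T t : ℝ} (hT : 2 ≤ T) (hc2 : c2 ≤ T) (ha0 : 0 ≤ a) (ha : a ≤ T / 2)
    (ht : t ≤ c2 * a) : t ≤ T ^ 4 := by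
  have h1 : c2 * a ≤ T * T := mul_le_mul hc2 (by linarith) ha0 (by linarith)
  have h2 : (1 : ℝ) ≤ T ^ 2 := one_le_pow₀ (by linarith)
  have h3 : T ^ 4 = T ^ 2 * T ^ 2 := by ring
  nlinarith

/-- geometry of one cell. -/
theorem sg_cell_geo {v r a d t : ℝ} (hv : 0 < v) (hr : 0 < r)
    (hd : d ≤ a * v) (hrle : r ≤ 1 / 16 * v) (hmul : r * (v + d) = 1 / 16 * v ^ 2)
    (ht : 1 + a ≤ t) : v ≤ 16 * (1 + a) * r ∧ 4 * r + d ≤ t * v := by
  constructor
  · have h1 : r * (v + d) ≤ r * (v + a * v) := by gcongr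
    have h2 : v * v ≤ (16 * (1 + a) * r) * v := by nlinarith
    exact le_of_mul_le_mul_right h2 hv
  · have : (1 + a) * v ≤ t * v := mul_le_mul_of_nonneg_right ht hv.le
    nlinarith

end Claimed.Agent.R322.Sx
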