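import Claimed.Agent.R322.Sx.Cells.Chain
import Claimed.Agent.R322.Sx.Cells.Lin
import Claimed.Agent.R322.Sx.Cells.Num

/-!
# R322 / Sx / Cells / Gauss : Gaussian summation of AE Proposition 4.3 (package Cells-C)

* `sg_cell` : `separated_ball` for a list which is only matched to the majority lists of the cell.
* `sg_cell_ctl` : all cells `B_{r(y)}(y)`, `r(y) = v / (16 (1 + |y - x|/v))`, `|y - x| ≤ a v`, `a = lev δ`, of a controlled
  scale satisfy the hypotheses of `sg_cell` with the common density `d_c = C a^{J + 2m} δ`.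
* `sg_sum` : the Gaussian kernel is the sum of the normalised cell weights (`Sep.gauss_cells`, `Sep.cell_weight`) and of
  a nonnegative remainder supported outside `closedBall x (a v)`.
* `sep_gauss` : the statement (verbatim from the original `Sx/Cells.lean`).
-/

set_option autoImplicit false

namespace Claimed.Agent.R322.Sx

open MeasureTheory Set Metric Filter Topology
open scoped ENNReal NNReal InnerProductSpace

variable {m n Q : ℕ}

theorem Fix.rmaj_pos {Cg : ℝ} (F : Fix m n Q Cg) : 0 < F.rmaj := by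
  unfold Fix.rmaj
  have := F.c_gt
  positivity

theorem Fix.rmaj_lt_one {Cg : ℝ} (F : Fix m n Q Cg) : F.rmaj < 1 := by
  unfold Fix.rmaj
  have := F.c_gt
  rw [div_lt_one (by linarith)]
  exact this

theorem Fix.c_mul_rmaj {Cg : ℝ} (F : Fix m n Q Cg) (r : ℝ) : F.c * (F.rmaj * r) = 4 * r := by
  unfold Fix.rmaj
  have := F.c_gt
  field_simp

/-- `separated_ball` for a list which is only matched to the majority lists of the cell. -/
theorem sg_cell (m n Q : ℕ) (hm : 1 ≤ m) (hQ : 2 ≤ Q)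
    (ih : ∀ q : ℕ, 1 ≤ q → q < Q → SignedAt m n q) (κ Cg : ℝ) (hκ : 0 < κ)
    (F : Fix m n Q Cg) (P : ℝ) (hP : 0 < P) :
    ∃ CQ CS T0 : ℝ, 0 < CQ ∧ 0 < CS ∧ ∀ (S : Sys m n) (T : ℝ) (χ : E m → ℝ), Root S Q κ Cg T χ →
      ∀ (y : E m) (r Tc : ℝ), T0 ≤ Tc → Tc ≤ T → 0 < r → r ≤ 1 → ball y (4 * r) ⊆ ball (0 : E m) 2 →
      S.tau Q (ball y (4 * r)) ≤ ENNReal.ofReal (Real.exp (-Tc) * r ^ m) →
      F.rmaj ^ (-(m : ℝ)) * Real.exp (-Tc) ≤ F.d0 →
      ∀ (A : Fin Q → E n) (ε ϱ c : ℝ), 0 ≤ ε →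
      (∀ A' : Fin Q → E n, F.IsMaj S y (F.rmaj * r) (F.rmaj ^ (-(m : ℝ)) * Real.exp (-Tc)) A' →
        Sys.Matched A A' ε) →
      Real.exp (CS * bQ Q Tc) * r * Real.sqrt (Real.exp (-Tc)) + ε ≤ ϱ →
      0 ≤ c → c ≤ Real.log Tc ^ 2 / Tc →
      ∀ grp : Fin Q → Fin Q, (∃ i j, grp i ≠ grp j) → Sys.Separated A grp (10 * ϱ) →
      ∀ w : E m → ℝ, IsWeight w y r →
        S.Phi CQ c A ϱ w ≤ Tc ^ (-P) * Real.exp (-Tc) * r ^ m := by
  obtain ⟨CQ, CS, T0, hCQ, hCS, H⟩ := separated_ball m n Q hm hQ ih κ Cg hκ F P hP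
  refine ⟨CQ, CS, T0, hCQ, hCS, ?_⟩
  intro S T χ hR y r Tc hTc hTcT hr hr1 hball hτ hd0 A ε ϱ c hε hmatch hϱ hc0 hc grp hgrp hsep w hw
  have hS := hR.hyp.valid
  have hCg := hR.hyp.Cg_le
  have hΩ : ball y (4 * r) ⊆ S.Ω :=
    hball.trans ((ball_subset_ball (by norm_num)).trans hR.hyp.room)
  have hγ : S.γ ≤ Real.exp (-κ * Tc) := by
    refine hR.hyp.geom.trans (Real.exp_le_exp.2 ?_)
    nlinarith
  have hrm := F.rmaj_pos
  have hrm1 := F.rmaj_lt_one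
  obtain ⟨A', hA'⟩ := F.exists_isMaj hS hCg (x := y) (s := F.rmaj * r)
    (d := F.rmaj ^ (-(m : ℝ)) * Real.exp (-Tc)) (by positivity) (by nlinarith) (by positivity) hd0
    (by rw [F.c_mul_rmaj]; exact hΩ) (by
      rw [F.c_mul_rmaj]
      refine hτ.trans (le_of_eq ?_)
      congr 1
      rw [mul_pow, Real.rpow_neg hrm.le, Real.rpow_natCast]
      field_simp)
  have hM := hmatch A' hA'
  obtain ⟨σ, hσ⟩ := hM
  set ϱ' := Real.exp (CS * bQ Q Tc) * r * Real.sqrt (Real.exp (-Tc)) with hϱ'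
  have hsep' : Sys.Separated A' (grp ∘ σ.symm)
      (10 * Real.exp (CS * bQ Q Tc) * r * Real.sqrt (Real.exp (-Tc))) := by
    intro i j hij
    have h1 := hsep (σ.symm i) (σ.symm j) hij
    have h2 := hσ (σ.symm i)
    have h3 := hσ (σ.symm j)
    rw [Equiv.apply_symm_apply] at h2 h3
    have h4 : ‖A (σ.symm i) - A (σ.symm j)‖
        ≤ ‖A (σ.symm i) - A' i‖ + ‖A' i - A' j‖ + ‖A (σ.symm j) - A' j‖ := by
      calc ‖A (σ.symm i) - A (σ.symm j)‖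
          = ‖(A (σ.symm i) - A' i) + (A' i - A' j) + (A' j - A (σ.symm j))‖ := by
            congr 1; abel
        _ ≤ ‖A (σ.symm i) - A' i‖ + ‖A' i - A' j‖ + ‖A' j - A (σ.symm j)‖ := norm_add₃_le
        _ = _ := by rw [norm_sub_rev (A' j)]
    have e : 10 * Real.exp (CS * bQ Q Tc) * r * Real.sqrt (Real.exp (-Tc)) = 10 * ϱ' := by
      rw [hϱ']; ring
    rw [e]
    linarith
  have hgrp' : ∃ i j, (grp ∘ σ.symm) i ≠ (grp ∘ σ.symm) j := by
    obtain ⟨i, j, hij⟩ := hgrp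
    exact ⟨σ i, σ j, by simpa using hij⟩
  have h5 := H S y r Tc hTc hS hCg hr hr1 hΩ hτ hγ A' hA' (grp ∘ σ.symm) hgrp' hsep' w hw
  have hN : Nice w 1 := hw.nice hr (((ball_subset_ball (by linarith)).trans hball).trans
    ((ball_subset_ball (by norm_num)).trans ball_subset_closedBall))
  have h6 := intDfar_le hR hN hw.nonneg (A := A) (A' := A') ⟨σ, hσ⟩ hε hϱ
  have h7 := intDfar_nonneg hS hw.nonneg A ϱ
  have h8 := intDfar_nonneg hS hw.nonneg A' ϱ'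
  refine le_trans ?_ h5
  unfold Sys.Phi
  have h9 : c * S.intDfar A ϱ w ≤ Real.log Tc ^ 2 / Tc * S.intDfar A' ϱ' w :=
    mul_le_mul hc h6 h7 (hc0.trans hc)
  linarith


/-- all cells of the Gaussian body at a controlled scale. -/
theorem sg_cell_ctl (m n Q : ℕ) (hm : 1 ≤ m) (hQ : 2 ≤ Q)
    (ih : ∀ q : ℕ, 1 ≤ q → q < Q → SignedAt m n q) (κ Cg : ℝ) (hκ : 0 < κ)
    (F : Fix m n Q Cg) (J Pe : ℝ) (hJ : 0 ≤ J) (hPe : 0 < Pe) :
    ∃ CQ CS : ℝ, 0 < CQ ∧ 0 < CS ∧ ∀ K1 Cl C4 N : ℝ, 1 ≤ K1 → 1 ≤ Cl → ∃ T0 : ℝ,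
      ∀ P : PD m n Q, P.Ok κ Cg → T0 ≤ P.T →
      ∀ v δ, P.Ctl K1 J v δ → ∀ A : Fin Q → E n, F.IsMaj P.S P.x v (Cl * δ) A →
      ∀ grp : Fin Q → Fin Q, (∃ i j, grp i ≠ grp j) →
      Sys.Separated A grp (10 * (Real.exp ((CS + 1) * bQ Q (lev δ)) * v * Real.sqrt δ)) →
      N ≤ lev δ ∧ 2 ≤ lev δ ∧ 0 ≤ Real.log (lev δ) ^ 2 / lev δ ∧ Real.log (lev δ) ^ 2 / lev δ ≤ 1 ∧
      ball P.x ((lev δ + 1) * v) ⊆ ball (0 : E m) 2 ∧
      ∃ B : ℝ, 0 ≤ B ∧ C4 * B ≤ lev δ ^ (-Pe) * δ / 2 ∧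
        ∀ y : E m, ‖y - P.x‖ ≤ lev δ * v → ∀ w : E m → ℝ,
          IsWeight w y (Sep.cellR (1 / 16) P.x v y) →
          P.S.Phi CQ (Real.log (lev δ) ^ 2 / lev δ) A
            (Real.exp ((CS + 1) * bQ Q (lev δ)) * v * Real.sqrt δ) w
          ≤ B * Sep.cellR (1 / 16) P.x v y ^ m := by
  have hQ1 : 1 ≤ Q := by omega
  have hM : 0 ≤ J + 2 * (m : ℝ) := by positivity
  obtain ⟨CQ, CS, Tsep, hCQ, hCS, Hc⟩ :=
    sg_cell m n Q hm hQ ih κ Cg hκ F (Pe + (J + 2 * (m : ℝ)) + 1) (by positivity)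
  refine ⟨CQ, CS, hCQ, hCS, fun K1 Cl C4 N hK1 hCl => ?_⟩
  obtain ⟨Cb, Tb, hCb, hball⟩ := ctl_ball m n Q hm hQ1 κ Cg K1 J hK1 hJ
  obtain ⟨Cc, J', hCc, hJ', Hch⟩ := chain_match m n Q hm hQ1 Cg F
  have hc := F.c_gt
  have hrm := F.rmaj_pos
  have hrm1 := F.rmaj_lt_one
  obtain ⟨c2, hc2def⟩ : ∃ c2 : ℝ, c2 = 256 * F.c ^ 2 := ⟨_, rfl⟩
  have hc2 : 0 < c2 := by rw [hc2def]; positivity
  obtain ⟨M, hMdef⟩ : ∃ M : ℝ, M = J + 2 * (m : ℝ) := ⟨_, rfl⟩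
  obtain ⟨Cpol, hCpdef⟩ : ∃ Cpol : ℝ, Cpol = max 1 (Cb * c2 ^ J * c2 ^ (2 * m)) := ⟨_, rfl⟩
  have hCpol : 1 ≤ Cpol := by rw [hCpdef]; exact le_max_left _ _
  obtain ⟨G, hGdef⟩ : ∃ G : ℝ, G = F.rmaj ^ (-(m : ℝ)) := ⟨_, rfl⟩
  have hG1 : 1 ≤ G := by
    rw [hGdef]
    exact Real.one_le_rpow_of_pos_of_le_one_of_nonpos hrm hrm1.le (by simp)
  have hG : 0 ≤ G := by linarith
  obtain ⟨C5, hC5def⟩ : ∃ C5 : ℝ, C5 = (F.Cmaj * (Real.sqrt Cl + Real.sqrt G) + Cc * c2 ^ J')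
      * Real.sqrt Cpol := ⟨_, rfl⟩
  rw [← hMdef] at hM Hc
  obtain ⟨a0, ha0, Hnum⟩ := sg_num Q Cpol M Pe C4 C5 (J' + M) CS G 0 F.d0 Tsep hCpol hM hPe.le hCS
    F.d0_pos
  obtain ⟨T0, hT0⟩ := ctl_small m n Q hQ1 K1 0 0 1 (max (max a0 N) c2) hK1 one_pos
  refine ⟨max Tb T0, fun P hP hT v δ h A hA grp hgrp hsep => ?_⟩
  obtain ⟨hT2, hNT, hρ1, hl2, hNl, -⟩ := hT0 P ((le_max_right _ _).trans hT) J v δ h
  have hexp := h.exp_neg_lev
  have hlT := h.lev_le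
  have hv := h.v_pos
  have hδ := h.δ_pos
  have hR := hP.root
  have hS := hR.hyp.valid
  obtain ⟨a, hadef⟩ : ∃ a : ℝ, a = lev δ := ⟨_, rfl⟩
  rw [← hadef] at hsep hexp hlT hl2 hNl ⊢
  have haa0 : a0 ≤ a := ((le_max_left _ _).trans (le_max_left _ _)).trans hNl
  have haN : N ≤ a := ((le_max_right _ _).trans (le_max_left _ _)).trans hNl
  have hc2T : c2 ≤ P.T := (le_max_right _ _).trans hNT
  have ha00 : 0 < a := by linarith
  obtain ⟨n1, n2, n3, n4, n5, n6, n7, n8, n9, n10, n11, n12⟩ := Hnum a haa0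
  obtain ⟨dc, hdc⟩ : ∃ dc : ℝ, dc = sgD Cpol M a := ⟨_, rfl⟩
  have hsq := sg_sqrt (Cpol := Cpol) (M := M) (a := a) (by linarith) hM (by linarith)
  rw [← hdc] at n1 n2 n3 n4 n5 n6 n7 n8 n9 n10 hsq
  rw [hexp] at n2 n7 hsq
  obtain ⟨Tc, hTc⟩ : ∃ Tc : ℝ, Tc = lev dc := ⟨_, rfl⟩
  rw [← hTc] at n3 n4 n5 n6 n7 n9 n10
  rw [Real.rpow_zero, mul_one] at n8
  -- the dilated ball
  obtain ⟨g1, g2, g3, g4, g5, g6⟩ := sg_geo hc hl2
  obtain ⟨t, htdef⟩ : ∃ t : ℝ, t = 128 * F.c ^ 2 * (1 + a) := ⟨_, rfl⟩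
  obtain ⟨R', hR'def⟩ : ∃ R' : ℝ, R' = 4 * F.c * (1 + a) := ⟨_, rfl⟩
  have e32 : 32 * F.c * R' * v = t * v := by rw [hR'def, htdef]; ring
  have eR : ∀ r : ℝ, F.rmaj * r * R' = 16 * (1 + a) * r := by
    intro r
    rw [hR'def]; unfold Fix.rmaj; field_simp; ring
  rw [← htdef] at g1 g2
  rw [← hR'def] at g3 g4
  rw [← hc2def] at g2 g4 g5 g6
  have ht4 : t ≤ P.T ^ 4 := sg_T4 hT2 hc2T ha00.le hlT g2
  have htv : t * v ≤ P.ρ := h.mul_le ht4
  obtain ⟨hb1, hb2⟩ := hball P hP ((le_max_left _ _).trans hT) v δ h t (by linarith) htv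
  have ht0 : 0 < t := by linarith
  have hv1 : v ≤ 1 := by
    have : 1 * v ≤ t * v := mul_le_mul_of_nonneg_right (by linarith) hv.le
    linarith
  obtain ⟨δ', hδ'def⟩ : ∃ δ' : ℝ, δ' = Cb * t ^ J * t ^ m * δ := ⟨_, rfl⟩
  have hδ'0 : 0 ≤ δ' := by rw [hδ'def]; positivity
  have hdens : ∀ X : ℝ, 0 ≤ X → X ≤ c2 * a → δ' * X ^ m ≤ dc := by
    intro X hX0 hX
    have := sg_dens (m := m) hCb hJ ha00 hc2 ht0.le g2 hX0 hX
    rw [hexp, ← hCpdef, ← hMdef, ← hdc] at this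
    rw [hδ'def]
    exact this
  have hb2' : P.S.tau Q (ball P.x (t * v)) ≤ ENNReal.ofReal (δ' * v ^ m) := by
    refine hb2.trans (le_of_eq ?_)
    congr 1
    rw [hδ'def, mul_pow]; ring
  have hδ'dc : δ' ≤ dc := by
    have := hdens 1 (by norm_num) g6
    simpa using this
  obtain ⟨ϱ, hϱdef⟩ : ∃ ϱ : ℝ, ϱ = Real.exp ((CS + 1) * bQ Q a) * v * Real.sqrt δ := ⟨_, rfl⟩
  rw [← hϱdef] at hsep ⊢
  obtain ⟨ε, hεdef⟩ : ∃ ε : ℝ, ε = C5 * a ^ (J' + M) * v * Real.sqrt δ := ⟨_, rfl⟩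
  have hC50 : 0 ≤ C5 := by
    rw [hC5def]
    have := F.Cmaj_pos
    positivity
  have hε : 0 ≤ ε := by
    rw [hεdef]
    positivity
  have hTc0 : 0 < Tc := by linarith
  refine ⟨haN, hl2, n11, n12,
    (ball_subset_ball (mul_le_mul_of_nonneg_right (by linarith) hv.le)).trans hb1,
    Tc ^ (-(Pe + M + 1)) * dc, by positivity, by rw [← mul_assoc]; exact n7, ?_⟩
  intro y hy w hw
  obtain ⟨r, hrdef⟩ : ∃ r : ℝ, r = Sep.cellR (1 / 16) P.x v y := ⟨_, rfl⟩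
  have hr0 : 0 < r := hrdef ▸ Sep.cellR_pos (by norm_num) hv P.x y
  have hrle : r ≤ 1 / 16 * v := hrdef ▸ Sep.cellR_le (by norm_num) hv P.x y
  have hmul : r * (v + ‖y - P.x‖) = 1 / 16 * v ^ 2 := hrdef ▸ Sep.clb_cellR_mul (1 / 16) hv P.x y
  rw [← hrdef] at hw ⊢
  obtain ⟨hrge, hin⟩ := sg_cell_geo hv hr0 hy hrle hmul g1
  have hsub : ball y (4 * r) ⊆ ball P.x (t * v) := by
    apply ball_subset_ball'
    rw [dist_eq_norm]
    exact hin
  have hτ : P.S.tau Q (ball y (4 * r)) ≤ ENNReal.ofReal (Real.exp (-Tc) * r ^ m) := by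
    refine (measure_mono hsub).trans (hb2'.trans (ENNReal.ofReal_le_ofReal ?_))
    rw [n6]
    have h1 : v ^ m ≤ (16 * (1 + a) * r) ^ m := pow_le_pow_left₀ hv.le hrge m
    have h2 := hdens (16 * (1 + a)) (by linarith) g5
    calc δ' * v ^ m ≤ δ' * (16 * (1 + a) * r) ^ m := mul_le_mul_of_nonneg_left h1 hδ'0
      _ = (δ' * (16 * (1 + a)) ^ m) * r ^ m := by rw [mul_pow]; ring
      _ ≤ dc * r ^ m := mul_le_mul_of_nonneg_right h2 (by positivity)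
  have hRv : v ≤ R' * v := by
    have : 1 * v ≤ R' * v := mul_le_mul_of_nonneg_right (by linarith) hv.le
    linarith
  have hmatch : ∀ A' : Fin Q → E n,
      F.IsMaj P.S y (F.rmaj * r) (F.rmaj ^ (-(m : ℝ)) * Real.exp (-Tc)) A' →
      Sys.Matched A A' ε := by
    intro A' hA'
    rw [n6, ← hGdef] at hA'
    have hvR : v / R' ≤ v := div_le_self hv.le (by linarith)
    have hd0 : δ' * R' ^ m ≤ F.d0 := by
      refine (hdens R' (by linarith) g4).trans (le_trans ?_ n8)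
      have : 1 * dc ≤ G * dc := mul_le_mul_of_nonneg_right hG1 n1.le
      linarith
    have hyR : ‖y - P.x‖ ≤ R' * v :=
      hy.trans (mul_le_mul_of_nonneg_right (by linarith) hv.le)
    have hs2 : F.rmaj * r ≤ R' * v := by
      have : F.rmaj * r ≤ 1 * v := mul_le_mul hrm1.le (by linarith) hr0.le (by norm_num)
      linarith
    have h1 := Hch P.S hS hR.hyp.Cg_le P.x v δ' R' hv hδ'0 (by linarith)
      (by rw [e32]; exact htv.trans hρ1)
      (by rw [e32]; exact hb1.trans ((ball_subset_ball (by norm_num)).trans hR.hyp.room))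
      (by rw [e32]; exact hb2') hd0
      P.x y v (F.rmaj * r) (Cl * δ) (G * dc) A A'
      (by rw [sub_self, norm_zero]; linarith) hyR hvR hRv
      (by
        rw [div_le_iff₀ (by linarith), eR]; exact hrge)
      hs2 hA hA'
    refine h1.mono ?_
    rw [hεdef, hC5def]
    exact sg_eps F.Cmaj_pos (by linarith) hG hCc hc2 hJ' hCpol hM (by linarith) hv hr0.le
      (by linarith) hrm1.le hδ'dc (by linarith) g4 hsq
  have hϱ : Real.exp (CS * bQ Q Tc) * r * Real.sqrt (Real.exp (-Tc)) + ε ≤ ϱ := by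
    rw [n6, hϱdef, hεdef]
    have hs0 := Real.sqrt_nonneg δ
    have h1 : Real.exp (CS * bQ Q Tc) * r * Real.sqrt dc
        ≤ Real.exp (CS * bQ Q Tc) * v * (Real.sqrt Cpol * a ^ M * Real.sqrt δ) := by
      have : r ≤ v := by linarith
      gcongr
    have h2 := mul_le_mul_of_nonneg_right n9 (mul_nonneg hv.le hs0)
    calc Real.exp (CS * bQ Q Tc) * r * Real.sqrt dc + C5 * a ^ (J' + M) * v * Real.sqrt δ
        ≤ Real.exp (CS * bQ Q Tc) * v * (Real.sqrt Cpol * a ^ M * Real.sqrt δ)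
          + C5 * a ^ (J' + M) * v * Real.sqrt δ := by linarith
      _ = (Real.exp (CS * bQ Q Tc) * (Real.sqrt Cpol * a ^ M) + C5 * a ^ (J' + M))
          * (v * Real.sqrt δ) := by ring
      _ ≤ Real.exp ((CS + 1) * bQ Q a) * (v * Real.sqrt δ) := h2
      _ = _ := by ring
  have h3 := Hc P.S P.T P.χ hR y r Tc n5 (by linarith) hr0 (by linarith) (hsub.trans hb1) hτ
    (by rw [n6, ← hGdef]; exact n8) A ε ϱ (Real.log a ^ 2 / a) hε hmatch hϱ n11 n10 grp hgrp hsep w hw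
  rw [n6] at h3
  exact h3

theorem sg_lip_continuous {f : E m → ℝ} {L : ℝ} (hL : 0 ≤ L)
    (h : ∀ z z', |f z - f z'| ≤ L * ‖z - z'‖) : Continuous f := by
  have : LipschitzWith (Real.toNNReal L) f := by
    apply LipschitzWith.of_dist_le_mul
    intro z z'
    rw [Real.coe_toNNReal _ hL, Real.dist_eq, dist_eq_norm]
    exact h z z'
  exact this.continuous

/-- summation of the cells: body and tail of the Gaussian kernel. -/
theorem sg_sum {S : Sys m n} {κ Cg T : ℝ} {χ : E m → ℝ} (hR : Root S Q κ Cg T χ) {x : E m}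
    {v a Clip : ℝ} (hv : 0 < v) (hClip : 0 < Clip)
    (hsub : ball x ((a + 1) * v) ⊆ ball (0 : E m) 2)
    {CQ c : ℝ} (hCQ : 0 ≤ CQ) (hc1 : c ≤ 1) (A : Fin Q → E n) (ϱ : ℝ)
    (Y : Finset (E m)) (φ : E m → E m → ℝ)
    (hY : ∀ y ∈ Y, ‖y - x‖ ≤ a * v)
    (h01 : ∀ y ∈ Y, ∀ z, 0 ≤ φ y z ∧ φ y z ≤ 1)
    (hsupp : ∀ y ∈ Y, Function.support (φ y) ⊆ ball y (Sep.cellR (1 / 16) x v y))
    (hlip : ∀ y ∈ Y, ∀ z z', |φ y z - φ y z'| ≤ Clip / Sep.cellR (1 / 16) x v y * ‖z - z'‖)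
    (hone : ∀ z, ‖z - x‖ ≤ a * v → ∑ y ∈ Y, φ y z = 1)
    (hle : ∀ z, ∑ y ∈ Y, φ y z ≤ 1)
    {B : ℝ}
    (hcell : ∀ y : E m, ‖y - x‖ ≤ a * v → ∀ w : E m → ℝ, IsWeight w y (Sep.cellR (1 / 16) x v y) →
      S.Phi CQ c A ϱ w ≤ B * Sep.cellR (1 / 16) x v y ^ m) :
    S.Phi CQ c A ϱ (Sys.ker χ v x)
      ≤ Real.exp 1 * (Clip + 1) * B * ∑ y ∈ Y, gauss m v (y - x) * Sep.cellR (1 / 16) x v y ^ m
        + 2 * ∫ z in (closedBall x (a * v))ᶜ, Sys.ker χ v x z ∂(S.tau Q) := by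
  obtain ⟨Cw, hCwdef⟩ : ∃ Cw : ℝ, Cw = Real.exp 1 * (Clip + 1) := ⟨_, rfl⟩
  have hCw : 0 < Cw := by rw [hCwdef]; positivity
  have hr0 : ∀ y, 0 < Sep.cellR (1 / 16) x v y := Sep.cellR_pos (by norm_num) hv x
  have hG0 : ∀ z, 0 < gauss m v z := Sep.gauss_pos m hv
  have hχc := cmpl_chi_continuous hR
  have hGc : Continuous fun z : E m => gauss m v (z - x) :=
    (cmpl_continuous_gauss m v).comp (continuous_id.sub continuous_const)
  -- cells are inside `ball 0 2`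
  have hcb : ∀ y ∈ Y, ball y (Sep.cellR (1 / 16) x v y) ⊆ ball (0 : E m) 2 := by
    intro y hy
    refine (ball_subset_ball' ?_).trans hsub
    rw [dist_eq_norm]
    have h1 := Sep.cellR_le (c1 := 1 / 16) (by norm_num) hv x y
    have h2 := hY y hy
    linarith
  have hφc : ∀ y ∈ Y, Continuous (φ y) := fun y hy =>
    sg_lip_continuous (div_nonneg hClip.le (hr0 y).le) (hlip y hy)
  have hΘc : Continuous fun z => ∑ y ∈ Y, φ y z := continuous_finsetSum _ hφc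
  have hΘ0 : ∀ z, 0 ≤ ∑ y ∈ Y, φ y z := fun z => Finset.sum_nonneg fun y hy => (h01 y hy z).1
  have hχΘ : ∀ z, ∑ y ∈ Y, φ y z ≤ χ z := by
    intro z
    by_cases hz : z ∈ ball (0 : E m) 2
    · rw [hR.cut.eq_one z hz]
      exact hle z
    · have : ∑ y ∈ Y, φ y z = 0 := by
        refine Finset.sum_eq_zero fun y hy => ?_
        by_contra h
        exact hz (hcb y hy (hsupp y hy h))
      rw [this]
      exact hR.cut.nonneg z
  set w' : E m → ℝ := fun z => (χ z - ∑ y ∈ Y, φ y z) * gauss m v (z - x) with hw'def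
  have hw'0 : ∀ z, 0 ≤ w' z := fun z =>
    mul_nonneg (by have := hχΘ z; linarith) (hG0 _).le
  have hw'le : ∀ z, w' z ≤ Sys.ker χ v x z := by
    intro z
    unfold Sys.ker
    exact mul_le_mul_of_nonneg_right (by have := hΘ0 z; linarith) (hG0 _).le
  have hw'body : ∀ z, ‖z - x‖ ≤ a * v → w' z = 0 := by
    intro z hz
    have h1 : z ∈ ball (0 : E m) 2 := by
      apply hsub
      rw [mem_ball, dist_eq_norm]
      linarith
    simp only [hw'def]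
    rw [hR.cut.eq_one z h1, hone z hz, sub_self, zero_mul]
  obtain ⟨G0, hG0def⟩ : ∃ G0 : ℝ, G0 = (2 * Real.pi * v ^ 2) ^ (-(m : ℝ) / 2) := ⟨_, rfl⟩
  have hker0 : ∀ z, 0 ≤ Sys.ker χ v x z := ctl_ker_nonneg hR v x
  have hkerle : ∀ z, Sys.ker χ v x z ≤ G0 := by
    intro z
    unfold Sys.ker
    have h1 := cmpl_gauss_le m v (z - x)
    rw [← hG0def] at h1
    calc χ z * gauss m v (z - x) ≤ 1 * G0 :=
          mul_le_mul (hR.cut.le_one z) h1 (hG0 _).le (by norm_num)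
      _ = G0 := one_mul _
  have hkersupp : Function.support (Sys.ker χ v x) ⊆ closedBall (0 : E m) 3 := by
    intro z hz
    by_contra h
    apply hz
    unfold Sys.ker
    rw [cmpl_chi_zero hR h, zero_mul]
  have hW : Nice (Sys.ker χ v x) G0 :=
    ⟨(hχc.mul hGc).measurable, fun z => by rw [abs_of_nonneg (hker0 z)]; exact hkerle z, hkersupp⟩
  have hw' : Nice w' G0 := by
    refine ⟨((hχc.sub hΘc).mul hGc).measurable, fun z => ?_, fun z hz => ?_⟩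
    · rw [abs_of_nonneg (hw'0 z)]
      exact (hw'le z).trans (hkerle z)
    · apply hkersupp
      intro h
      apply hz
      have h1 := hw'le z
      have h2 := hw'0 z
      rw [h] at h1
      exact le_antisymm h1 h2
  set wf : E m → E m → ℝ := fun y z => φ y z * gauss m v (z - x) / (Cw * gauss m v (y - x))
    with hwfdef
  have hwfW : ∀ y ∈ Y, IsWeight (wf y) y (Sep.cellR (1 / 16) x v y) := by
    intro y hy
    have := Sep.cell_weight (c1 := 1 / 16) (by norm_num) le_rfl hv hClip x y (φ y) (h01 y hy)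
      (hsupp y hy) (hlip y hy)
    rw [← hCwdef] at this
    exact this
  have hwfN : ∀ y ∈ Y, Nice (wf y) ((fun _ => (1 : ℝ)) y) := fun y hy =>
    (hwfW y hy).nice (hr0 y) ((hcb y hy).trans
      ((ball_subset_ball (by norm_num)).trans ball_subset_closedBall))
  have hdec : ∀ z, Sys.ker χ v x z
      = ∑ y ∈ Y, (Cw * gauss m v (y - x)) * wf y z + w' z := by
    intro z
    have h1 : ∀ y ∈ Y, (Cw * gauss m v (y - x)) * wf y z = φ y z * gauss m v (z - x) := by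
      intro y _
      simp only [hwfdef]
      have := (hG0 (y - x)).ne'
      field_simp
    rw [Finset.sum_congr rfl h1, ← Finset.sum_mul]
    simp only [hw'def]
    unfold Sys.ker
    ring
  rw [Phi_sum hR CQ c A ϱ Y (fun y => Cw * gauss m v (y - x)) wf (fun _ => 1) hW hwfN hw' hdec]
  have hA1 : ∑ y ∈ Y, (Cw * gauss m v (y - x)) * S.Phi CQ c A ϱ (wf y)
      ≤ Cw * B * ∑ y ∈ Y, gauss m v (y - x) * Sep.cellR (1 / 16) x v y ^ m := by
    rw [Finset.mul_sum]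
    refine Finset.sum_le_sum fun y hy => ?_
    have h1 := hcell y (hY y hy) (wf y) (hwfW y hy)
    calc (Cw * gauss m v (y - x)) * S.Phi CQ c A ϱ (wf y)
        ≤ (Cw * gauss m v (y - x)) * (B * Sep.cellR (1 / 16) x v y ^ m) :=
          mul_le_mul_of_nonneg_left h1 (mul_nonneg hCw.le (hG0 _).le)
      _ = _ := by ring
  have hAm : MeasurableSet (closedBall x (a * v))ᶜ := isClosed_closedBall.measurableSet.compl
  have hA2 : ∫ z, w' z ∂(S.tau Q) ≤ ∫ z in (closedBall x (a * v))ᶜ, Sys.ker χ v x z ∂(S.tau Q) := by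
    rw [← integral_indicator hAm]
    refine integral_mono (hw'.int_tau hR) ((hW.int_tau hR).indicator hAm) fun z => ?_
    by_cases hz : z ∈ (closedBall x (a * v))ᶜ
    · simp only [indicator_of_mem hz]
      exact hw'le z
    · simp only [indicator_of_notMem hz]
      rw [mem_compl_iff, not_not, mem_closedBall, dist_eq_norm] at hz
      exact le_of_eq (hw'body z hz)
  have hA3 := Phi_tail hR hCQ hc1 A ϱ hw' hw'0
  rw [← hCwdef]
  linarith

/-! ## Package Cells-C : Gaussian summation -/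

/-- Gaussian far tilt: tilt of the points farther than `ϱ` from the list `A`. -/
noncomputable def PD.Dfar (P : PD m n Q) (A : Fin Q → E n) (ϱ v : ℝ) : ℝ :=
  P.S.avg P.χ v P.x fun q => {q : E m × E n | ϱ < Sys.distA A q.2}.indicator P.S.e q

/-- **Gaussian form of AE Proposition 4.3 at a controlled scale.**
Order of constants: `C_Q` depends only on the exponents `J`, `Pe` (it is the constant of
`separated_ball` for `P = Pe + J + 2m + 1`), NOT on `K1`, `Cl` (which depend on `C_Q` in the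
application on the path).  The estimate is monotone in `C_Q`. -/
theorem sep_gauss (m n Q : ℕ) (hm : 1 ≤ m) (hQ : 2 ≤ Q)
    (ih : ∀ q : ℕ, 1 ≤ q → q < Q → SignedAt m n q) (κ Cg : ℝ) (hκ : 0 < κ)
    (F : Fix m n Q Cg) (J Pe : ℝ) (hJ : 0 ≤ J) (hPe : 0 < Pe) :
    ∃ CQ : ℝ, 0 < CQ ∧ ∀ K1 Cl : ℝ, 1 ≤ K1 → 1 ≤ Cl → ∃ CS2 T0 : ℝ, 0 < CS2 ∧
      ∀ P : PD m n Q, P.Ok κ Cg → T0 ≤ P.T →
      ∀ v δ, P.Ctl K1 J v δ → ∀ A : Fin Q → E n, F.IsMaj P.S P.x v (Cl * δ) A →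
      ∀ grp : Fin Q → Fin Q, (∃ i j, grp i ≠ grp j) →
      Sys.Separated A grp (10 * Real.exp (CS2 * bQ Q (lev δ)) * v * Real.sqrt δ) →
      P.Lv v - CQ * P.Lamv v
          + Real.log (lev δ) ^ 2 / lev δ
            * P.Dfar A (Real.exp (CS2 * bQ Q (lev δ)) * v * Real.sqrt δ) v
        ≤ lev δ ^ (-Pe) * δ := by
  have hQ1 : 1 ≤ Q := by omega
  obtain ⟨CQ, CS, hCQ, hCS, H⟩ := sg_cell_ctl m n Q hm hQ ih κ Cg hκ F J Pe hJ hPe
  obtain ⟨Cov, Clip, hClip, Hcells⟩ := Sep.gauss_cells m hm (1 / 16) (by norm_num) le_rfl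
  obtain ⟨Cs, hCs, Hsum⟩ := Sep.cell_sum m hm (1 / 16) (by norm_num) le_rfl Cov
  refine ⟨CQ, hCQ, fun K1 Cl hK1 hCl => ?_⟩
  obtain ⟨Ct, ct, Tt, hCt, hct, Htail⟩ := ctl_tail m n Q hm hQ1 κ Cg K1 J hK1 hJ 0
  obtain ⟨L0, hL0, hs⟩ := ctl_lev_small (4 * Ct) Pe 1 one_pos
  obtain ⟨T0, hT0⟩ := H K1 Cl (Real.exp 1 * (Clip + 1) * Cs) (max L0 (1 / ct)) hK1 hCl
  refine ⟨CS + 1, max T0 Tt, by positivity, fun P hP hT v δ h A hA grp hgrp hsep => ?_⟩
  have hsep' : Sys.Separated A grp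
      (10 * (Real.exp ((CS + 1) * bQ Q (lev δ)) * v * Real.sqrt δ)) := by
    have e : 10 * (Real.exp ((CS + 1) * bQ Q (lev δ)) * v * Real.sqrt δ)
        = 10 * Real.exp ((CS + 1) * bQ Q (lev δ)) * v * Real.sqrt δ := by ring
    rw [e]; exact hsep
  obtain ⟨hN, hl2, hc0, hc1, hsub, B, hB, hB4, hcell⟩ :=
    hT0 P hP ((le_max_left _ _).trans hT) v δ h A hA grp hgrp hsep'
  obtain ⟨Y, φ, y1, y2, y3, y4, y5, y6, y7⟩ := Hcells P.x v (lev δ) h.v_pos (by linarith)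
  have h1 := sg_sum hP.root h.v_pos hClip hsub hCQ.le hc1 A _ Y φ y1 y2 y3 y4 y5 y6 hcell
  have h2 := Hsum 0 P.x v 1 Y h.v_pos zero_le_one y7
  have h3 := Htail P hP ((le_max_right _ _).trans hT) v δ h (lev δ) (by linarith)
  simp only [pow_zero, mul_one] at h3
  have h2' : ∑ y ∈ Y, gauss m v (y - P.x) * Sep.cellR (1 / 16) P.x v y ^ m ≤ Cs := by
    have e : gav (0 : Measure (E m)) v P.x = 0 := by unfold gav; simp
    rw [e, zero_add, mul_one] at h2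
    refine le_trans (le_of_eq ?_) h2
    refine Finset.sum_congr rfl fun y _ => ?_
    simp
  have hδ := h.δ_pos
  have h4 : 4 * Ct * Real.exp (-ct * lev δ ^ 2) ≤ lev δ ^ (-Pe) :=
    ctl_tail_num (by positivity) hct (by linarith) ((le_max_right _ _).trans hN)
      (hs (lev δ) ((le_max_left _ _).trans hN))
  have h5 : Real.exp 1 * (Clip + 1) * B
      * ∑ y ∈ Y, gauss m v (y - P.x) * Sep.cellR (1 / 16) P.x v y ^ m
      ≤ lev δ ^ (-Pe) * δ / 2 := by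
    refine le_trans ?_ hB4
    calc Real.exp 1 * (Clip + 1) * B
          * ∑ y ∈ Y, gauss m v (y - P.x) * Sep.cellR (1 / 16) P.x v y ^ m
        ≤ Real.exp 1 * (Clip + 1) * B * Cs := mul_le_mul_of_nonneg_left h2' (by positivity)
      _ = _ := by ring
  have h6 : 2 * (Ct * Real.exp (-ct * lev δ ^ 2) * δ) ≤ lev δ ^ (-Pe) * δ / 2 := by
    have := mul_le_mul_of_nonneg_right h4 hδ.le
    linarith
  have e : P.Lv v - CQ * P.Lamv v
      + Real.log (lev δ) ^ 2 / lev δ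
        * P.Dfar A (Real.exp ((CS + 1) * bQ Q (lev δ)) * v * Real.sqrt δ) v
      = P.S.Phi CQ (Real.log (lev δ) ^ 2 / lev δ) A
        (Real.exp ((CS + 1) * bQ Q (lev δ)) * v * Real.sqrt δ) (Sys.ker P.χ v P.x) := rfl
  rw [e]
  linarith

end Claimed.Agent.R322.Sx
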